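import Vale.Agent.P359.Cert.Fock
import Vale.Agent.P359.Point.Sector

/-!
# P359: from the occupation-number inequality to the sector hypothesis

`cert0`, `cert1`, `cert2` are the window coefficients in monomial coordinates; multiplied by the
scales `sX i = √(nX i)`, `sA a = √(a!)` they give `cLoc · rhoR`, `-wR` and `lamR / 2`
(`scale_cert0`, `scale_cert1`, `scale_cert2`).
-/

namespace Vale.Agent.P359.Cert

open Finset

/-- The scale of a pair weight. -/
noncomputable def sX (i : Fin 6) : ℝ := Real.sqrt (nX (i : ℕ))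

/-- The scale of an orbital. -/
noncomputable def sA (a : Fin 9) : ℝ := Real.sqrt ((a : ℕ).factorial : ℝ)

/-- The coefficients of degree zero. -/
noncomputable def cert0 (i j : Fin 6) : ℝ := if i = j then cLoc * rhoR i / nX (i : ℕ) else 0

/-- The coefficients of degree one. -/
noncomputable def cert1 (x y : Fin 6 × Fin 9) : ℝ :=
  if (x.1 : ℕ) + x.2 = y.1 + y.2 then
    -((((wNum.getD ((x.1 : ℕ) + x.2) []).filter fun e => e.1 = x.2.val ∧ e.2.1 = y.2.val).map
      fun e => val e.2.2).sum)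
  else 0

/-- The coefficients of degree two. -/
noncomputable def cert2 (x y : (Fin 6 × Fin 9) × Fin 9) : ℝ :=
  if (x.1.1 : ℕ) + x.1.2 + x.2 = y.1.1 + y.1.2 + y.2 then
    (1 / 4) * (((lamNum.getD ((x.1.1 : ℕ) + x.1.2 + x.2) []).map fun e =>
      val e.2.2 * anti (fun a b => if (a, b) = e.1 then 1 else 0) x.1.2 x.2 *
        anti (fun a b => if (a, b) = e.2.1 then 1 else 0) y.1.2 y.2).sum)
  else 0

theorem nX_pos (i : ℕ) : (0 : ℝ) < nX i := by
  unfold nX; positivity

theorem sX_ne_zero (i : Fin 6) : sX i ≠ 0 := (Real.sqrt_pos.2 (nX_pos i)).ne'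

theorem sA_ne_zero (a : Fin 9) : sA a ≠ 0 :=
  (Real.sqrt_pos.2 (by exact_mod_cast (a : ℕ).factorial_pos)).ne'

theorem sA_sq (a : Fin 9) : sA a ^ 2 = ((a : ℕ).factorial : ℝ) :=
  Real.sq_sqrt (Nat.cast_nonneg _)

theorem scale_cert0 (i j : Fin 6) :
    sX i * cert0 i j * sX j = if i = j then cLoc * rhoR i else 0 := by
  by_cases h : i = j
  · subst h
    have h' := Real.mul_self_sqrt (nX_pos i).le
    rw [cert0, if_pos rfl, if_pos rfl, sX]
    have hne := (nX_pos i).ne'
    field_simp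
    rw [sq, h']
    ring
  · simp [cert0, h]

theorem scale_cert1 (x y : Fin 6 × Fin 9) :
    sX x.1 * sA x.2 * cert1 x y * (sX y.1 * sA y.2) = -wR x y := by
  unfold cert1 wR sX sA
  split_ifs
  · rw [Real.sqrt_mul (by have := nX_pos x.1; positivity),
      Real.sqrt_mul (nX_pos x.1).le, Real.sqrt_mul (nX_pos y.1).le]
    ring
  · simp

theorem scale_cert2 (x y : (Fin 6 × Fin 9) × Fin 9) :
    sX x.1.1 * sA x.1.2 * sA x.2 * cert2 x y * (sX y.1.1 * sA y.1.2 * sA y.2) =
      lamR (x.1.1, x.1.2, x.2) (y.1.1, y.1.2, y.2) / 2 := by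
  unfold cert2 lamR sX sA
  simp only
  split_ifs
  · rw [Real.sqrt_mul (by have := nX_pos x.1.1; positivity),
      Real.sqrt_mul (by have := nX_pos x.1.1; positivity), Real.sqrt_mul (nX_pos x.1.1).le,
      Real.sqrt_mul (by have := nX_pos y.1.1; positivity), Real.sqrt_mul (nX_pos y.1.1).le]
    ring
  · simp

/-- The weights of the spectator sums. -/
noncomputable def kap (a : Fin 9) : ℝ := 1 / sA a ^ 2

/-- A function of pair weight and finite sets of window orbitals on all natural indices. -/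
def extend (ψ : Fin 6 → Finset (Fin 9) → ℝ) (i : ℕ) (S : Finset ℕ) : ℝ :=
  if h : i < 6 then ψ ⟨i, h⟩ (univ.filter fun a : Fin 9 => (a : ℕ) ∈ S) else 0

variable (ψ : Fin 6 → Finset (Fin 9) → ℝ) (R : Finset (Fin 9))

theorem extend_map (i : Fin 6) : extend ψ i (R.map Fin.valEmbedding) = ψ i R := by
  rw [extend, dif_pos i.isLt]
  congr 1
  ext a
  simp [Fin.val_inj]

theorem prod_kap : ∏ a ∈ R, kap a = 1 / (prF (R.map Fin.valEmbedding) : ℝ) := by
  rw [prF, Finset.prod_map, Nat.cast_prod, one_div, ← Finset.prod_inv_distrib]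
  exact Finset.prod_congr rfl fun a _ => by rw [kap, sA_sq, one_div]; rfl

theorem sgnF_map (p : Fin 9) : sgnF (R.map Fin.valEmbedding) p = Point.sg R p := by
  unfold sgnF Point.sg
  rw [Finset.filter_map, Finset.card_map]
  rfl

theorem ann1_map (i : Fin 6) (p : Fin 9) :
    ann1 (extend ψ i) (R.map Fin.valEmbedding) p = Point.out1 ψ R (i, p) := by
  have h : (p : ℕ) ∈ R.map Fin.valEmbedding ↔ p ∈ R := by simp [Fin.val_inj]
  by_cases hp : p ∈ R
  · simp [ann1, Point.out1, hp, h.2 hp]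
  · rw [ann1, if_neg (mt h.1 hp), Point.out1, if_neg hp, sgnF_map,
      ← extend_map ψ (insert p R) i, Finset.map_insert]
    rfl

theorem ann2_map (i : Fin 6) (p q : Fin 9) :
    ann2 (extend ψ i) (R.map Fin.valEmbedding) p q = Point.out2 ψ R ((i, p), q) := by
  have h : (q : ℕ) ∈ R.map Fin.valEmbedding ↔ q ∈ R := by simp [Fin.val_inj]
  by_cases hq : q ∈ R
  · simp [ann2, Point.out2, hq, h.2 hq]
  · rw [ann2, if_neg (mt h.1 hq), Point.out2, if_neg hq, sgnF_map]
    congr 1
    rw [← ann1_map ψ (insert q R) i p, Finset.map_insert]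
    rfl

theorem out2_swap (i : Fin 6) {p q : Fin 9} (hpq : p < q) :
    Point.out2 ψ R ((i, q), p) = -Point.out2 ψ R ((i, p), q) := by
  unfold Point.out2 Point.out1
  by_cases hp : p ∈ R
  · by_cases hq : q ∈ R <;> simp [hp, hq]
  by_cases hq : q ∈ R
  · simp [hp, hq]
  have h1 : q ∉ insert p R := by simp [hpq.ne', hq]
  have h2 : p ∉ insert q R := by simp [hpq.ne, hp]
  simp only [if_neg hp, if_neg hq, if_neg h1, if_neg h2, Finset.insert_comm q p R]
  unfold Point.sg
  rw [Finset.filter_insert, if_pos hpq, Finset.filter_insert, if_neg hpq.not_gt,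
    Finset.card_insert_of_notMem (by simp [hp]), pow_succ]
  ring

theorem sum_occs (F : Finset ℕ → ℝ) :
    ∑ S ∈ occs, F S = ∑ R : Finset (Fin 9), F (R.map Fin.valEmbedding) := by
  symm
  refine Finset.sum_bij' (fun R _ => R.map Fin.valEmbedding)
    (fun S _ => univ.filter fun a : Fin 9 => (a : ℕ) ∈ S)
    (fun R _ => by simp [occs, Finset.subset_iff]) (fun S _ => Finset.mem_univ _) (fun R _ => ?_)
    (fun S hS => ?_) fun R _ => rfl
  · ext a
    simp [Fin.val_inj]
  · ext a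
    simp only [occs, Finset.mem_powerset] at hS
    simp only [Finset.mem_map, Finset.mem_filter, Finset.mem_univ, true_and,
      Fin.valEmbedding_apply]
    exact ⟨fun ⟨b, hb, e⟩ => e ▸ hb, fun ha => ⟨⟨a, Finset.mem_range.1 (hS ha)⟩, ha, rfl⟩⟩

theorem sum_list_map {ι β : Type*} (s : Finset ι) (l : List β) (F : ι → β → ℝ) :
    ∑ u ∈ s, (l.map (F u)).sum = (l.map fun e => ∑ u ∈ s, F u e).sum := by
  induction l with
  | nil => simp
  | cons e l ih => simp [Finset.sum_add_distrib, ih]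

theorem sum_map_neg' {β : Type*} (l : List β) (F : β → ℝ) :
    -(l.map F).sum = (l.map fun e => -F e).sum := by
  induction l with
  | nil => simp
  | cons e l ih => simp [← ih, add_comm]

theorem sum_filter_list {β : Type*} (l : List β) (P : β → Bool) (F : β → ℝ) :
    ((l.filter P).map F).sum = (l.map fun e => if P e then F e else 0).sum := by
  induction l with
  | nil => simp
  | cons e l ih => by_cases h : P e <;> simp [h, ih]

/-- A form supported on pairs of equal level is a sum over levels. -/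
theorem sum_levels {ι β : Type*} [Fintype ι] (lev : ι → ℕ) (N : ℕ) (hlev : ∀ u, lev u < N)
    (data : ℕ → List β) (w : β → ℝ) (α γ : β → ι → ℝ) (Φ : ι → ℝ) :
    ∑ u, ∑ v, (if lev u = lev v then
        ((data (lev u)).map fun e => w e * α e u * γ e v).sum else 0) * (Φ u * Φ v) =
      ∑ T ∈ range N, ((data T).map fun e =>
        w e * ((∑ u, if lev u = T then α e u * Φ u else 0) *
          ∑ v, if lev v = T then γ e v * Φ v else 0)).sum := by
  have h : ∀ u v, (if lev u = lev v then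
      ((data (lev u)).map fun e => w e * α e u * γ e v).sum else 0) * (Φ u * Φ v) =
      ∑ T ∈ range N, ((data T).map fun e => w e * ((if lev u = T then α e u * Φ u else 0) *
        (if lev v = T then γ e v * Φ v else 0))).sum := by
    intro u v
    rw [Finset.sum_eq_single (lev u) (fun T _ hT => by simp [Ne.symm hT])
      (fun h => absurd (Finset.mem_range.2 (hlev u)) h)]
    by_cases huv : lev u = lev v
    · rw [if_pos huv, ← List.sum_map_mul_right]
      refine congrArg List.sum (List.map_congr_left fun e _ => ?_)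
      rw [if_pos rfl, if_pos huv.symm]
      ring
    · simp [huv, Ne.symm huv]
  simp only [h]
  rw [Finset.sum_congr rfl fun u _ => Finset.sum_comm, Finset.sum_comm]
  refine Finset.sum_congr rfl fun T _ => ?_
  simp only [sum_list_map]
  refine congrArg List.sum (List.map_congr_left fun e _ => ?_)
  rw [Finset.sum_mul_sum, Finset.mul_sum]
  exact Finset.sum_congr rfl fun u _ => by rw [Finset.mul_sum]

/-- A level and an orbital determine the state of pair and one particle. -/
theorem sum_point1 {T p : ℕ} (hp : p < 9) (hT : p ≤ T) (hi : T - p < 6)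
    (Φ : Fin 6 × Fin 9 → ℝ) :
    (∑ u : Fin 6 × Fin 9, if (u.1 : ℕ) + u.2 = T then
      (if p = (u.2 : ℕ) then (1 : ℝ) else 0) * Φ u else 0) = Φ (⟨T - p, hi⟩, ⟨p, hp⟩) := by
  rw [Finset.sum_eq_single ((⟨T - p, hi⟩ : Fin 6), (⟨p, hp⟩ : Fin 9))]
  · simp [Nat.sub_add_cancel hT]
  · intro u _ hu
    split_ifs with h1 h2
    · exact absurd (Prod.ext (Fin.ext (by simp only; omega)) (Fin.ext h2.symm)) hu
    · simp
    · rfl
  · simp

theorem one_body :
    ∑ R : Finset (Fin 9), (∏ l ∈ R, kap l) * ∑ u, ∑ v, cert1 u v *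
      (Point.out1 ψ R u * Point.out1 ψ R v) = -fockOne (extend ψ) := by
  unfold fockOne
  rw [sum_occs, ← Finset.sum_neg_distrib]
  refine Finset.sum_congr rfl fun R _ => ?_
  rw [prod_kap]
  have hrw : ∀ u v : Fin 6 × Fin 9, cert1 u v =
      if ((u.1 : ℕ) + u.2) = (v.1 : ℕ) + v.2 then
        ((wNum.getD ((u.1 : ℕ) + u.2) []).map fun e => -val e.2.2 *
          (if e.1 = (u.2 : ℕ) then (1 : ℝ) else 0) *
          (if e.2.1 = (v.2 : ℕ) then (1 : ℝ) else 0)).sum else 0 := by
    intro u v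
    unfold cert1
    split_ifs
    · rw [sum_filter_list, sum_map_neg']
      refine congrArg List.sum (List.map_congr_left fun e _ => ?_)
      by_cases h1 : e.1 = (u.2 : ℕ) <;> by_cases h2 : e.2.1 = (v.2 : ℕ) <;> simp [h1, h2]
    · rfl
  simp only [hrw]
  rw [sum_levels (fun u : Fin 6 × Fin 9 => (u.1 : ℕ) + u.2) 14 (fun u => by omega)
      (fun T => wNum.getD T []) (fun e => -val e.2.2)
      (fun e u => if e.1 = (u.2 : ℕ) then (1 : ℝ) else 0)
      (fun e v => if e.2.1 = (v.2 : ℕ) then (1 : ℝ) else 0) (Point.out1 ψ R),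
    Finset.mul_sum, ← Finset.sum_neg_distrib]
  refine Finset.sum_congr rfl fun T hT => ?_
  rw [← List.sum_map_mul_left, sum_map_neg']
  refine congrArg List.sum (List.map_congr_left fun e he => ?_)
  obtain ⟨h1, h2, h3, h4, h5, h6⟩ := supportOK.1 T (Finset.mem_range.1 hT) e he
  rw [sum_point1 h1 h3 h5, sum_point1 h2 h4 h6,
    ← ann1_map ψ R ⟨T - e.1, h5⟩ ⟨e.1, h1⟩, ← ann1_map ψ R ⟨T - e.2.1, h6⟩ ⟨e.2.1, h2⟩]
  ring

/-- A level and two orbitals determine the state of pair and two particles. -/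
theorem sum_point2 {L : ℕ} {e : ℕ × ℕ} (hab : e.1 < e.2) (hb : e.2 < 9) (hL : e.1 + e.2 ≤ L)
    (hi : L - e.1 - e.2 < 6) (Φ : (Fin 6 × Fin 9) × Fin 9 → ℝ)
    (hΦ : ∀ i (p q : Fin 9), p < q → Φ ((i, q), p) = -Φ ((i, p), q)) :
    (∑ u : (Fin 6 × Fin 9) × Fin 9, if (u.1.1 : ℕ) + u.1.2 + u.2 = L then
      anti (fun a b => if (a, b) = e then (1 : ℝ) else 0) u.1.2 u.2 * Φ u else 0) =
      2 * Φ ((⟨L - e.1 - e.2, hi⟩, ⟨e.1, hab.trans hb⟩), ⟨e.2, hb⟩) := by
  obtain ⟨a, b⟩ := e
  simp only at hab hb hL hi ⊢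
  let u0 : (Fin 6 × Fin 9) × Fin 9 := ((⟨L - a - b, hi⟩, ⟨a, hab.trans hb⟩), ⟨b, hb⟩)
  let u1 : (Fin 6 × Fin 9) × Fin 9 := ((⟨L - a - b, hi⟩, ⟨b, hb⟩), ⟨a, hab.trans hb⟩)
  have hne : u0 ≠ u1 := fun h => by
    have := congrArg (fun u : (Fin 6 × Fin 9) × Fin 9 => (u.2 : ℕ)) h
    simp [u0, u1] at this
    omega
  rw [Finset.sum_eq_add u0 u1 hne ?_ (by simp) (by simp)]
  · have e0 : (L - a - b) + a + b = L := by omega
    have e1 : (L - a - b) + b + a = L := by omega
    rw [if_pos (show (u0.1.1 : ℕ) + u0.1.2 + u0.2 = L from e0),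
      if_pos (show (u1.1.1 : ℕ) + u1.1.2 + u1.2 = L from e1), hΦ _ _ _ (show
        (⟨a, hab.trans hb⟩ : Fin 9) < ⟨b, hb⟩ from hab)]
    simp [anti, u0, u1, hab, hab.not_gt]
    ring
  · rintro ⟨⟨i, p⟩, q⟩ _ ⟨h0, h1⟩
    rw [ite_eq_right_iff]
    intro hl
    simp only at hl
    have hp : ¬((p : ℕ) = a ∧ (q : ℕ) = b) := fun ⟨h, h'⟩ =>
      h0 (Prod.ext (Prod.ext (Fin.ext (by simp [u0]; omega)) (Fin.ext h)) (Fin.ext h'))
    have hq : ¬((p : ℕ) = b ∧ (q : ℕ) = a) := fun ⟨h, h'⟩ =>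
      h1 (Prod.ext (Prod.ext (Fin.ext (by simp [u1]; omega)) (Fin.ext h)) (Fin.ext h'))
    unfold anti
    split_ifs <;> simp_all
    all_goals (intros; exfalso; omega)

theorem two_body :
    ∑ R : Finset (Fin 9), (∏ l ∈ R, kap l) * ∑ u, ∑ v, cert2 u v *
      (Point.out2 ψ R u * Point.out2 ψ R v) = fockTwo (extend ψ) := by
  unfold fockTwo
  rw [sum_occs]
  refine Finset.sum_congr rfl fun R _ => ?_
  rw [prod_kap]
  have hrw : ∀ u v : (Fin 6 × Fin 9) × Fin 9, cert2 u v =
      if ((u.1.1 : ℕ) + u.1.2 + u.2) = (v.1.1 : ℕ) + v.1.2 + v.2 then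
        ((lamNum.getD ((u.1.1 : ℕ) + u.1.2 + u.2) []).map fun e => (1 / 4 * val e.2.2) *
          anti (fun a b => if (a, b) = e.1 then 1 else 0) u.1.2 u.2 *
          anti (fun a b => if (a, b) = e.2.1 then 1 else 0) v.1.2 v.2).sum else 0 := by
    intro u v
    unfold cert2
    split_ifs
    · rw [← List.sum_map_mul_left]
      refine congrArg List.sum (List.map_congr_left fun e _ => ?_)
      ring
    · rfl
  simp only [hrw]
  rw [sum_levels (fun u : (Fin 6 × Fin 9) × Fin 9 => (u.1.1 : ℕ) + u.1.2 + u.2) 22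
    (fun u => by omega) (fun L => lamNum.getD L []) (fun e => 1 / 4 * val e.2.2)
    (fun e u => anti (fun a b => if (a, b) = e.1 then 1 else 0) u.1.2 u.2)
    (fun e v => anti (fun a b => if (a, b) = e.2.1 then 1 else 0) v.1.2 v.2) (Point.out2 ψ R), Finset.mul_sum, Finset.sum_range_succ,
    List.getD_eq_default _ _ (show lamNum.length ≤ 21 by decide)]
  simp only [List.map_nil, List.sum_nil, mul_zero, add_zero]
  refine Finset.sum_congr rfl fun L hL => ?_
  rw [← List.sum_map_mul_left]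
  refine congrArg List.sum (List.map_congr_left fun e he => ?_)
  obtain ⟨⟨h1, h2, h3, h4⟩, h5, h6, h7, h8⟩ := supportOK.2 L (Finset.mem_range.1 hL) e he
  have hsw := fun i p q hpq => out2_swap ψ R i (p := p) (q := q) hpq
  rw [sum_point2 h1 h2 h3 h4 _ hsw, sum_point2 h5 h6 h7 h8 _ hsw,
    ← ann2_map ψ R ⟨L - e.1.1 - e.1.2, h4⟩ ⟨e.1.1, h1.trans h2⟩ ⟨e.1.2, h2⟩,
    ← ann2_map ψ R ⟨L - e.2.1.1 - e.2.1.2, h8⟩ ⟨e.2.1.1, h5.trans h6⟩ ⟨e.2.1.2, h6⟩]
  ring

theorem zero_body :
    ∑ R : Finset (Fin 9), (∏ l ∈ R, kap l) * ∑ i, ∑ j, cert0 i j * (ψ i R * ψ j R) =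
      fockDiag (extend ψ) := by
  unfold fockDiag
  rw [Finset.mul_sum, Finset.sum_range]
  simp only [Finset.mul_sum, sum_occs]
  rw [Finset.sum_comm]
  refine Finset.sum_congr rfl fun i _ => ?_
  refine Finset.sum_congr rfl fun R _ => ?_
  rw [Finset.sum_eq_single i (fun j _ hj => by simp [cert0, Ne.symm hj]) (by simp), prod_kap,
    extend_map, cert0, if_pos rfl, rhoR]
  ring

/-- The occupation-number inequality is the sector hypothesis of `Point.nonneg_of_sectors`. -/
theorem sectors_of_fockOK (h : FockOK) (ψ : Fin 6 → Finset (Fin 9) → ℝ) :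
    0 ≤ Point.sectorForm (fun a => 1 / sA a ^ 2) cert0 (fun R j => ψ j R)
      + Point.sectorForm (fun a => 1 / sA a ^ 2) cert1 (Point.out1 ψ)
      + Point.sectorForm (fun a => 1 / sA a ^ 2) cert2 (Point.out2 ψ) := by
  have := h (extend ψ)
  rw [← zero_body, ← two_body, sub_eq_add_neg, ← one_body] at this
  exact this

theorem cert0_symm (i j : Fin 6) : cert0 i j = cert0 j i := by
  by_cases h : i = j
  · rw [h]
  · simp [cert0, h, Ne.symm h]

theorem wNum_perm : ∀ T < 14,
    List.Perm (wNum.getD T []) ((wNum.getD T []).map fun e => (e.2.1, e.1, e.2.2)) := by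
  decide +kernel

theorem lamNum_perm : ∀ L < 21,
    List.Perm (lamNum.getD L []) ((lamNum.getD L []).map fun e => (e.2.1, e.1, e.2.2)) := by
  decide +kernel

theorem cert1_symm (x y : Fin 6 × Fin 9) : cert1 x y = cert1 y x := by
  by_cases h : (x.1 : ℕ) + x.2 = y.1 + y.2
  · rw [cert1, cert1, if_pos h, if_pos h.symm, ← h, sum_filter_list, sum_filter_list,
      ((wNum_perm _ (show (x.1 : ℕ) + x.2 < 14 by omega)).map _).sum_eq, List.map_map]
    congr 1
    refine congrArg List.sum (List.map_congr_left fun e _ => ?_)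
    simp [and_comm]
  · simp [cert1, h, Ne.symm h]

theorem cert2_symm (x y : (Fin 6 × Fin 9) × Fin 9) : cert2 x y = cert2 y x := by
  by_cases h : (x.1.1 : ℕ) + x.1.2 + x.2 = y.1.1 + y.1.2 + y.2
  · rw [cert2, cert2, if_pos h, if_pos h.symm, ← h]
    rcases lt_or_ge ((x.1.1 : ℕ) + x.1.2 + x.2) 21 with hL | hL
    · rw [((lamNum_perm _ hL).map _).sum_eq, List.map_map]
      congr 1
      refine congrArg List.sum (List.map_congr_left fun e _ => ?_)
      simp only [Function.comp_apply]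
      ring
    · rw [List.getD_eq_default _ _ (le_trans (show lamNum.length ≤ 21 by decide) hL)]
      simp
  · simp [cert2, h, Ne.symm h]

end Vale.Agent.P359.Cert
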