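import Vale.Agent.P359.Cert.Planar

/-!
# P359: the local inequality in occupation numbers

The window inequality for all particle numbers at once. A state is a pair weight `i < 6` and the set
`S` of occupied orbitals below `9`; `u i S` is the coefficient in monomial coordinates, that is, the
orthonormal coefficient times `√(nX i * prF S)`. Moving the particle in orbital `p` to the front
costs the sign `(-1) ^ #{a ∈ S | a < p}`.
-/

namespace Vale.Agent.P359.Cert

open Finset

/-- The squared norm of a product of distinct orbitals. -/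
def prF (S : Finset ℕ) : ℕ := ∏ a ∈ S, a.factorial

/-- The sign of inserting the orbital `p`. -/
def sgnF (S : Finset ℕ) (p : ℕ) : ℝ := (-1) ^ (S.filter fun a => a < p).card

/-- The component with orbital `p` in front. -/
def ann1 (v : Finset ℕ → ℝ) (S : Finset ℕ) (p : ℕ) : ℝ :=
  if p ∈ S then 0 else sgnF S p * v (insert p S)

/-- The component with the orbitals `p`, `q` in front, in this order. -/
def ann2 (v : Finset ℕ → ℝ) (S : Finset ℕ) (p q : ℕ) : ℝ :=
  if q ∈ S then 0 else sgnF S q * ann1 v (insert q S) p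

/-- The occupation sets of the window. -/
def occs : Finset (Finset ℕ) := (range 9).powerset

/-- The weight of the pair. -/
noncomputable def fockDiag (u : ℕ → Finset ℕ → ℝ) : ℝ :=
  cLoc * ∑ i ∈ range 6, ∑ S ∈ occs, val (rhoNum.getD i 0) / (nX i * (prF S : ℝ)) * u i S ^ 2

/-- The one-body part. -/
noncomputable def fockOne (u : ℕ → Finset ℕ → ℝ) : ℝ :=
  ∑ S ∈ occs, ∑ T ∈ range 14, ((wNum.getD T []).map fun e =>
    val e.2.2 / (prF S : ℝ) * (ann1 (u (T - e.1)) S e.1 * ann1 (u (T - e.2.1)) S e.2.1)).sum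

/-- The two-body part. -/
noncomputable def fockTwo (u : ℕ → Finset ℕ → ℝ) : ℝ :=
  ∑ S ∈ occs, ∑ L ∈ range 21, ((lamNum.getD L []).map fun e =>
    val e.2.2 / (prF S : ℝ) * (ann2 (u (L - e.1.1 - e.1.2)) S e.1.1 e.1.2 *
      ann2 (u (L - e.2.1.1 - e.2.1.2)) S e.2.1.1 e.2.1.2)).sum

/-- The local inequality in occupation numbers. -/
def FockOK : Prop := ∀ u : ℕ → Finset ℕ → ℝ, 0 ≤ fockDiag u - fockOne u + fockTwo u

/-- The support of the data lies in the window. -/
def SupportOK : Prop :=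
  (∀ T < 14, ∀ e ∈ wNum.getD T [],
    e.1 < 9 ∧ e.2.1 < 9 ∧ e.1 ≤ T ∧ e.2.1 ≤ T ∧ T - e.1 < 6 ∧ T - e.2.1 < 6) ∧
  ∀ L < 21, ∀ e ∈ lamNum.getD L [],
    (e.1.1 < e.1.2 ∧ e.1.2 < 9 ∧ e.1.1 + e.1.2 ≤ L ∧ L - e.1.1 - e.1.2 < 6) ∧
      e.2.1.1 < e.2.1.2 ∧ e.2.1.2 < 9 ∧ e.2.1.1 + e.2.1.2 ≤ L ∧ L - e.2.1.1 - e.2.1.2 < 6

theorem supportOK : SupportOK := by unfold SupportOK; decide +kernel

end Vale.Agent.P359.Cert
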