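import Vale.Agent.P359.Cert.LocalSound

/-!
# P359: occupation masks and occupation sets
-/

namespace Vale.Agent.P359.Cert.Local

open Finset

/-- The set of a mask. -/
def mset (m : ℕ) : Finset ℕ := (range 9).filter fun a => bit m a = true

/-- A product below a bound. -/
noncomputable def prodR (f : ℕ → ℕ) (n : ℕ) : ℕ := Nat.rec 1 (fun i r => Nat.mul r (f i)) n

theorem prodR_eq (f : ℕ → ℕ) (n : ℕ) : prodR f n = ∏ i ∈ range n, f i := by
  induction n with
  | zero => rfl
  | succ n ih => rw [prod_range_succ, ← ih]; rfl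

/-- The factorials below `9`. -/
def facts : List ℕ := [1, 1, 2, 6, 24, 120, 720, 5040, 40320]

/-- The test of one mask. -/
noncomputable def maskOk (m : ℕ) : Bool :=
  and (Nat.beq (sumR (fun a => cond (bit m a) (Nat.shiftLeft 1 a) 0) 9) m)
    (and (Nat.beq (Nat.mul (cop m) (prodR (fun a => cond (bit m a) (nth 1 facts a) 1) 9))
        5056584744960000)
      (allR (fun p =>
        and (Nat.beq (par m p)
            (Nat.mod (sumR (fun a => cond (and (bit m a) (Nat.ble (Nat.succ a) p)) 1 0) 9) 2))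
          (cond (bit m p)
            (and (Nat.ble (Nat.shiftLeft 1 p) m) (not (bit (Nat.sub m (Nat.shiftLeft 1 p)) p)))
            (and (Nat.ble (Nat.succ (Nat.add m (Nat.shiftLeft 1 p))) 512)
              (allR (fun a => cond (Nat.beq a p) (bit (Nat.add m (Nat.shiftLeft 1 p)) a)
                (cond (bit m a) (bit (Nat.add m (Nat.shiftLeft 1 p)) a)
                  (not (bit (Nat.add m (Nat.shiftLeft 1 p)) a)))) 9)))) 9))

theorem masks_ok : allR maskOk 512 = true := by decide +kernel

theorem facts_eq : ∀ a < 9, facts.getD a 1 = a.factorial := by decide +kernel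

theorem mask_facts {m : ℕ} (hm : m < 512) : maskOk m = true := (allR_iff _ _).1 masks_ok m hm

theorem shl_one (p : ℕ) : Nat.shiftLeft 1 p = 2 ^ p := Nat.one_shiftLeft p

theorem mem_mset {m a : ℕ} : a ∈ mset m ↔ a < 9 ∧ bit m a = true := by simp [mset]

theorem mset_occs (m : ℕ) : mset m ∈ occs := mem_powerset.2 (filter_subset _ _)

theorem sum_mset {m : ℕ} (hm : m < 512) : ∑ a ∈ mset m, 2 ^ a = m := by
  have h := mask_facts hm
  simp only [maskOk, Bool.and_eq_true, Nat.beq_eq, sumR_eq, shl_one] at h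
  rw [mset, sum_filter]
  refine Eq.trans (sum_congr rfl fun a _ => ?_) h.1
  cases bit m a <;> simp

theorem cop_mul {m : ℕ} (hm : m < 512) : cop m * prF (mset m) = 5056584744960000 := by
  have h := mask_facts hm
  simp only [maskOk, Bool.and_eq_true, Nat.beq_eq, prodR_eq, nth_eq, Nat.mul_eq] at h
  rw [prF, mset, prod_filter]
  refine Eq.trans (congrArg _ (prod_congr rfl fun a ha => ?_)) h.2.1
  rw [facts_eq a (mem_range.1 ha)]
  cases bit m a <;> simp

theorem sgn_par {m p : ℕ} (hm : m < 512) (hp : p < 9) : sgnF (mset m) p = (-1) ^ par m p := by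
  have h := mask_facts hm
  simp only [maskOk, Bool.and_eq_true, allR_iff, Nat.beq_eq, sumR_eq, nat_mod] at h
  rw [(h.2.2 p hp).1, ← neg_one_pow_eq_pow_mod_two, sgnF]
  congr 1
  rw [mset, filter_filter, card_filter]
  refine sum_congr rfl fun a _ => ?_
  cases bit m a <;> simp [Nat.ble_eq, Bool.cond_eq_ite, Nat.succ_le_iff]

theorem bit_split {m p : ℕ} (hm : m < 512) (hp : p < 9) (hb : bit m p = true) :
    2 ^ p ≤ m ∧ bit (m - 2 ^ p) p = false := by
  have h := mask_facts hm
  simp only [maskOk, Bool.and_eq_true, allR_iff] at h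
  have := (h.2.2 p hp).2
  simpa [hb, shl_one, Nat.ble_eq, Nat.shiftLeft_eq] using this

theorem bit_join {m p : ℕ} (hm : m < 512) (hp : p < 9) (hb : bit m p = false) :
    m + 2 ^ p < 512 ∧ bit (m + 2 ^ p) p = true ∧ mset (m + 2 ^ p) = insert p (mset m) := by
  have h := mask_facts hm
  simp only [maskOk, Bool.and_eq_true, allR_iff] at h
  have h1 := (h.2.2 p hp).2
  simp only [hb, cond_false, shl_one, Bool.and_eq_true, Nat.ble_eq, allR_iff, Nat.succ_le_iff,
    Nat.add_eq] at h1
  have hpp := h1.2 p hp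
  simp at hpp
  refine ⟨h1.1, hpp, ?_⟩
  ext a
  simp only [mem_insert, mem_mset]
  constructor
  · rintro ⟨ha, hba⟩
    by_cases hap : a = p
    · exact Or.inl hap
    · refine Or.inr ⟨ha, ?_⟩
      have := h1.2 a ha
      cases hma : bit m a
      · simp [hma, hap, hba] at this
      · rfl
  · rintro (rfl | ⟨ha, hma⟩)
    · exact ⟨hp, hpp⟩
    · refine ⟨ha, ?_⟩
      have := h1.2 a ha
      by_cases hap : a = p
      · subst hap; exact hpp
      · simpa [hma, hap] using this

theorem mset_of_occ {S : Finset ℕ} (hS : S ∈ occs) : ∃ m < 512, mset m = S := by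
  have hsub : (range 512).image mset ⊆ occs := fun T hT => by
    obtain ⟨m, -, rfl⟩ := mem_image.1 hT
    exact mset_occs m
  have hinj : Set.InjOn mset (range 512 : Finset ℕ) := fun a ha b hb h => by
    rw [← sum_mset (mem_range.1 ha), ← sum_mset (mem_range.1 hb), h]
  have hcard : occs.card ≤ ((range 512).image mset).card := by
    rw [card_image_of_injOn hinj, card_range, occs, card_powerset, card_range]
    norm_num
  obtain ⟨m, hm, rfl⟩ := mem_image.1 (eq_of_subset_of_card_le hsub hcard ▸ hS)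
  exact ⟨m, mem_range.1 hm, rfl⟩

theorem sum_occs {β : Type*} [AddCommMonoid β] (G : Finset ℕ → β) :
    ∑ S ∈ occs, G S = ∑ m ∈ range 512, G (mset m) := by
  refine (sum_bij' (fun S _ => ∑ a ∈ S, 2 ^ a) (fun m _ => mset m) ?_ ?_ ?_ ?_ ?_)
  · intro S hS
    obtain ⟨m, hm, rfl⟩ := mset_of_occ hS
    rw [sum_mset hm]; exact mem_range.2 hm
  · exact fun m _ => mset_occs m
  · intro S hS
    obtain ⟨m, hm, rfl⟩ := mset_of_occ hS
    rw [sum_mset hm]
  · exact fun m hm => sum_mset (mem_range.1 hm)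
  · intro S hS
    obtain ⟨m, hm, rfl⟩ := mset_of_occ hS
    rw [sum_mset hm]

/-- Removing an orbital from a mask. -/
theorem sum_remove {β : Type*} [AddCommMonoid β] {p : ℕ} (hp : p < 9) (f : ℕ → β) :
    ∑ m ∈ range 512, (if bit m p = true then f (m - 2 ^ p) else 0)
      = ∑ m ∈ range 512, if bit m p = false then f m else 0 := by
  rw [← sum_filter, ← sum_filter]
  refine sum_nbij' (fun m => m - 2 ^ p) (fun m => m + 2 ^ p) (fun m hm => ?_) (fun m hm => ?_)
    (fun m hm => ?_) (fun m hm => ?_) (fun m _ => rfl)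
  all_goals simp only [mem_filter, mem_range] at hm
  · simp only [mem_filter, mem_range]
    exact ⟨lt_of_le_of_lt (Nat.sub_le _ _) hm.1, (bit_split hm.1 hp hm.2).2⟩
  · simp only [mem_filter, mem_range]
    exact ⟨(bit_join hm.1 hp hm.2).1, (bit_join hm.1 hp hm.2).2.1⟩
  · exact Nat.sub_add_cancel (bit_split hm.1 hp hm.2).1
  · exact Nat.add_sub_cancel m _

theorem bit_other {m p q : ℕ} (hm : m < 512) (hp : p < 9) (hq : q < 9) (hne : q ≠ p)
    (hb : bit m p = true) : bit (m - 2 ^ p) q = bit m q := by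
  obtain ⟨h1, h2⟩ := bit_split hm hp hb
  have hm' : m - 2 ^ p < 512 := lt_of_le_of_lt (Nat.sub_le _ _) hm
  have e := (bit_join hm' hp h2).2.2
  rw [Nat.sub_add_cancel h1] at e
  cases hx : bit (m - 2 ^ p) q <;> cases hy : bit m q <;> try rfl
  · have : q ∈ insert p (mset (m - 2 ^ p)) := e ▸ mem_mset.2 ⟨hq, hy⟩
    simp [mem_mset, hne, hx] at this
  · have : q ∈ mset m := e ▸ mem_insert_of_mem (mem_mset.2 ⟨hq, hx⟩)
    simp [mem_mset, hy] at this

end Vale.Agent.P359.Cert.Local
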