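import Vale.Agent.P359.Cert.LocalCover
import Vale.Agent.P359.Cert.LocalMasks

/-!
# P359: the local inequality in occupation numbers holds

`FockOK` follows from the sector checks: the form of all rows is a positive multiple of the form.
-/

namespace Vale.Agent.P359.Cert

namespace Local

open Finset

theorem wRows_ok : ∀ T < 14, ∀ p < 9, (wRows.getD T []).getD p []
    = ((wNum.getD T []).filter fun e => e.1 == p).map packW := by decide +kernel

/-- The rows of one level and one second orbital agree with the data. -/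
def lamRowOk (L b : ℕ) : Bool :=
  (List.range b).all fun a => decide (((lamRows.getD L []).getD b []).getD a []
    = (((lamNum.getD L []).filter fun e => e.1.2 == b).filter fun e => e.1.1 == a).map packL)

theorem lamRowOk_all : ∀ L < 21, ∀ b < 9, lamRowOk L b = true := by decide +kernel

theorem lamRows_ok : ∀ L < 21, ∀ b < 9, ∀ a < b, ((lamRows.getD L []).getD b []).getD a []
    = (((lamNum.getD L []).filter fun e => e.1.2 == b).filter fun e => e.1.1 == a).map packL := by
  intro L hL b hb a ha
  have h := lamRowOk_all L hL b hb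
  rw [lamRowOk, List.all_eq_true] at h
  simpa using h a (List.mem_range.2 ha)

theorem diag_ok : ∀ i < 6, 0 ≤ rhoNum.getD i 0 ∧
    (diag.getD i 0 : ℤ) * (i.factorial : ℤ) = 10920 * 2 ^ i * rhoNum.getD i 0 := by
  decide +kernel

/-- The scale of the row form. -/
noncomputable def scaleK : ℝ := 36028797018963968 * 5056584744960000 * 12000

theorem bit_false_iff {m a : ℕ} (ha : a < 9) : bit m a = false ↔ a ∉ mset m := by
  simp [mem_mset, ha]

theorem scale_val {m : ℕ} (hm : m < 512) (v : ℤ) :
    scaleK * (val v / (prF (mset m) : ℝ)) = 12000 * v * (cop m : ℝ) := by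
  have h : (cop m : ℝ) * (prF (mset m) : ℝ) = 5056584744960000 := by exact_mod_cast cop_mul hm
  have hp : (prF (mset m) : ℝ) ≠ 0 := fun e => by rw [e, mul_zero] at h; norm_num at h
  rw [scaleK, val, den, ← h]
  push_cast
  field_simp

theorem coef_parity (a v y : ℕ) : (coef (a % 2, v, y) : ℝ) = (-1) ^ a * v := by
  rw [neg_one_pow_eq_pow_mod_two]
  rcases Nat.mod_two_eq_zero_or_one a with h | h <;> simp [coef, h]

theorem sum_shift {β : Type*} [AddCommMonoid β] {p N : ℕ} (h : p + 6 ≤ N) (H : ℕ → β)
    (h0 : ∀ T < N, ¬ (p ≤ T ∧ T < p + 6) → H T = 0) :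
    ∑ T ∈ range N, H T = ∑ i ∈ range 6, H (i + p) := by
  rw [← sum_subset (s₁ := Ico p (p + 6)) (fun T hT => mem_range.2 (by simp at hT; omega))
    (fun T hT hn => h0 T (mem_range.1 hT) (by simpa using hn)), sum_Ico_eq_sum_range]
  simp [add_comm]

theorem sum_by_key {α β : Type*} [AddCommMonoid β] (key : α → ℕ) {N : ℕ} (g : α → β) :
    ∀ l : List α, (∀ e ∈ l, key e < N) →
      (l.map g).sum = ∑ p ∈ range N, ((l.filter fun e => key e == p).map g).sum
  | [], _ => by simp
  | a :: l, h => by
    have ih := sum_by_key key g l fun e he => h e (List.mem_cons_of_mem _ he)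
    have ha := h a (List.mem_cons_self ..)
    have e : ∀ p, (((a :: l).filter fun e => key e == p).map g).sum
        = (if key a = p then g a else 0) + ((l.filter fun e => key e == p).map g).sum := by
      intro p
      by_cases hp : key a = p <;> simp [List.filter_cons, hp]
    simp only [List.map_cons, List.sum_cons, e, sum_add_distrib, sum_ite_eq, mem_range.2 ha,
      if_true, ih]

theorem sum_map_neg {α : Type*} (l : List α) (g : α → ℝ) :
    (l.map fun e => -g e).sum = -(l.map g).sum := by
  induction l with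
  | nil => simp
  | cons a l ih => simp [ih]; ring

theorem sum_split {β : Type*} [AddCommMonoid β] {A B : ℕ} (hB : 0 < B) (f : ℕ → ℕ → β) :
    ∑ n ∈ range (A * B), f (n / B) (n % B) = ∑ i ∈ range A, ∑ m ∈ range B, f i m := by
  rw [← sum_product']
  refine sum_nbij' (fun n => (n / B, n % B)) (fun p => p.1 * B + p.2) (fun n hn => ?_)
    (fun p hp => ?_) (fun n _ => Nat.div_add_mod' n B) (fun p hp => ?_) (fun n _ => rfl)
  all_goals simp only [mem_product, mem_range, mem_coe] at *
  · exact ⟨Nat.div_lt_of_lt_mul (by rwa [mul_comm]), Nat.mod_lt _ hB⟩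
  · exact lt_of_lt_of_le (Nat.add_lt_add_left hp.2 _)
      ((Nat.succ_mul p.1 B).symm.le.trans (Nat.mul_le_mul_right B hp.1))
  · refine Prod.ext ?_ ?_
    · simp [Nat.add_comm (p.1 * B), Nat.add_mul_div_right _ _ hB, Nat.div_eq_of_lt hp.2]
    · simp [Nat.add_comm (p.1 * B), Nat.add_mul_mod_self_right, Nat.mod_eq_of_lt hp.2]

/-- The coordinate of a state. -/
def stU (u : ℕ → Finset ℕ → ℝ) (n : ℕ) : ℝ := u (n / 512) (mset (n % 512))

theorem stU_mk (u : ℕ → Finset ℕ → ℝ) (i : ℕ) {m : ℕ} (hm : m < 512) :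
    stU u (i * 512 + m) = u i (mset m) := by
  rw [stU, Nat.add_comm (i * 512), Nat.add_mul_div_right _ _ (by norm_num : 0 < 512),
    Nat.div_eq_of_lt hm, Nat.zero_add, Nat.add_mul_mod_self_right, Nat.mod_eq_of_lt hm]

/-- The scaled one-body term of a remaining mask. -/
noncomputable def one1 (u : ℕ → Finset ℕ → ℝ) (T m : ℕ) (e : ℕ × ℕ × ℤ) : ℝ :=
  12000 * e.2.2 * cop m * (ann1 (u (T - e.1)) (mset m) e.1 * ann1 (u (T - e.2.1)) (mset m) e.2.1)

/-- The scaled two-body term of a remaining mask. -/
noncomputable def two1 (u : ℕ → Finset ℕ → ℝ) (L m : ℕ) (e : (ℕ × ℕ) × (ℕ × ℕ) × ℤ) : ℝ :=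
  12000 * e.2.2 * cop m * (ann2 (u (L - e.1.1 - e.1.2)) (mset m) e.1.1 e.1.2 *
    ann2 (u (L - e.2.1.1 - e.2.1.2)) (mset m) e.2.1.1 e.2.1.2)

theorem w_sum {u : ℕ → Finset ℕ → ℝ} {i m p : ℕ} (hi : i < 6) (hm : m < 512) (hp : p < 9) :
    ((wTerms i m p).map fun t => (coef t : ℝ) * (u i (mset m) * stU u t.2.2)).sum
      = if bit m p = true then
          -((((wNum.getD (i + p) []).filter fun e => e.1 == p).map fun e => one1 u (i + p) (m - 2 ^ p) e).sum)
        else 0 := by
  by_cases hb : bit m p = true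
  · simp only [wTerms, hb, if_true, wRows_ok (i + p) (by omega) p hp, sum_flatMap, List.map_map,
      ← sum_map_neg]
    refine congrArg List.sum (List.map_congr_left fun e he => ?_)
    simp only [List.mem_filter, beq_iff_eq] at he
    obtain ⟨he, hep⟩ := he
    obtain ⟨-, hq, -, hqT, -, -⟩ := supportOK.1 (i + p) (by omega) e he
    obtain ⟨h1, h2⟩ := bit_split hm hp hb
    have hm1 : m - 2 ^ p < 512 := lt_of_le_of_lt (Nat.sub_le _ _) hm
    have hins := (bit_join hm1 hp h2).2.2
    rw [Nat.sub_add_cancel h1] at hins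
    have hpn := (bit_false_iff hp).1 h2
    simp only [Function.comp, packW, one1, hep, Nat.add_sub_cancel]
    rcases (Bool.eq_false_or_eq_true (bit (m - 2 ^ p) e.2.1)).symm with hb1 | hb1
    · have hqn := (bit_false_iff hq).1 hb1
      obtain ⟨hj1, -, hj3⟩ := bit_join hm1 hq hb1
      simp only [hb1, Bool.false_eq_true, if_false, List.map_cons, List.map_nil, List.sum_cons,
        List.sum_nil, add_zero]
      rw [coef_parity, stU_mk u _ hj1, hj3, ann1, ann1, if_neg hpn, if_neg hqn, hins,
        sgn_par hm1 hp, sgn_par hm1 hq, pow_add, pow_add]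
      rcases lt_or_ge e.2.2 0 with hv | hv
      · rw [if_pos hv]
        push_cast
        rw [Nat.cast_natAbs, abs_of_neg hv]
        push_cast
        ring
      · rw [if_neg (not_lt.2 hv)]
        push_cast
        rw [Nat.cast_natAbs, abs_of_nonneg hv]
        push_cast
        ring
    · have hqn : e.2.1 ∈ mset (m - 2 ^ p) := mem_mset.2 ⟨hq, hb1⟩
      simp [hb1, ann1, hqn]
  · simp [wTerms, hb]

theorem lam_sum {u : ℕ → Finset ℕ → ℝ} {i m a b : ℕ} (hi : i < 6) (hm : m < 512) (hab : a < b)
    (hb9 : b < 9) :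
    ((lamTerms i m b a).map fun t => (coef t : ℝ) * (u i (mset m) * stU u t.2.2)).sum
      = if bit m b = true ∧ bit m a = true then
          ((((lamNum.getD (i + (a + b)) []).filter fun e => e.1.2 == b).filter fun e => e.1.1 == a).map
            fun e => two1 u (i + (a + b)) (m - 2 ^ a - 2 ^ b) e).sum
        else 0 := by
  by_cases hb : bit m b = true ∧ bit m a = true
  · simp only [lamTerms, hb, and_self, if_true,
      lamRows_ok (i + (a + b)) (by omega) b hb9 a hab, sum_flatMap, List.map_map]
    refine congrArg List.sum (List.map_congr_left fun e he => ?_)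
    simp only [List.mem_filter, beq_iff_eq] at he
    obtain ⟨⟨he, heb⟩, hea⟩ := he
    obtain ⟨-, hce, he9, hceL, -⟩ := supportOK.2 (i + (a + b)) (by omega) e he
    have ha9 : a < 9 := hab.trans hb9
    obtain ⟨ha1, ha2⟩ := bit_split hm ha9 hb.2
    have hm1 : m - 2 ^ a < 512 := lt_of_le_of_lt (Nat.sub_le _ _) hm
    have hb1 : bit (m - 2 ^ a) b = true := by rw [bit_other hm ha9 hb9 hab.ne' hb.2]; exact hb.1
    obtain ⟨hb2, hb3⟩ := bit_split hm1 hb9 hb1
    have hm0 : m - 2 ^ a - 2 ^ b < 512 := lt_of_le_of_lt (Nat.sub_le _ _) hm1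
    have hins1 := (bit_join hm0 hb9 hb3).2.2
    rw [Nat.sub_add_cancel hb2] at hins1
    have hins := (bit_join hm1 ha9 ha2).2.2
    rw [Nat.sub_add_cancel ha1] at hins
    have hbn := (bit_false_iff hb9).1 hb3
    have han := (bit_false_iff ha9).1 ha2
    have hL : i + (a + b) - a - b = i := by omega
    have hL' : i + (a + b) - (e.2.1.1 + e.2.1.2) = i + (a + b) - e.2.1.1 - e.2.1.2 :=
      (Nat.sub_sub _ _ _).symm
    have hc9 : e.2.1.1 < 9 := hce.trans he9
    have hleft : ann2 (u i) (mset (m - 2 ^ a - 2 ^ b)) a b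
        = (-1) ^ par (m - 2 ^ a - 2 ^ b) b * ((-1) ^ par (m - 2 ^ a) a * u i (mset m)) := by
      rw [ann2, if_neg hbn, ← hins1, ann1, if_neg han, ← hins, sgn_par hm0 hb9, sgn_par hm1 ha9]
    simp only [Function.comp, packL, two1, hea, heb, hL, hleft, Nat.sub_add_cancel hb2]
    rcases (Bool.eq_false_or_eq_true (bit (m - 2 ^ a - 2 ^ b) e.2.1.2)).symm with hb4 | hb4
    · have hen := (bit_false_iff he9).1 hb4
      obtain ⟨hj1, -, hj3⟩ := bit_join hm0 he9 hb4
      rcases (Bool.eq_false_or_eq_true (bit (m - 2 ^ a - 2 ^ b) e.2.1.1)).symm with hb5 | hb5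
      · have hcn : e.2.1.1 ∉ mset (m - 2 ^ a - 2 ^ b + 2 ^ e.2.1.2) := by
          rw [hj3, mem_insert, not_or]
          exact ⟨hce.ne, (bit_false_iff hc9).1 hb5⟩
        obtain ⟨hk1, -, hk3⟩ := bit_join hj1 hc9 ((bit_false_iff hc9).2 hcn)
        simp only [hb4, hb5, Bool.false_eq_true, or_self, if_false, List.map_cons, List.map_nil, List.sum_cons,
          List.sum_nil, add_zero]
        rw [coef_parity, stU_mk u _ hk1, hL', hk3, ann2, if_neg hen, ← hj3, ann1, if_neg hcn,
          sgn_par hm0 he9, sgn_par hj1 hc9, pow_add, pow_add, pow_add, pow_add]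
        rcases lt_or_ge e.2.2 0 with hv | hv
        · rw [if_pos hv]
          push_cast
          rw [Nat.cast_natAbs, abs_of_neg hv]
          push_cast
          ring
        · rw [if_neg (not_lt.2 hv)]
          push_cast
          rw [Nat.cast_natAbs, abs_of_nonneg hv]
          push_cast
          ring
      · have hcn : e.2.1.1 ∈ mset (m - 2 ^ a - 2 ^ b) := mem_mset.2 ⟨hc9, hb5⟩
        simp [hb4, hb5, ann1, ann2, hcn]
    · have hen : e.2.1.2 ∈ mset (m - 2 ^ a - 2 ^ b) := mem_mset.2 ⟨he9, hb4⟩
      simp [hb4, ann2, hen]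
  · simp [lamTerms, hb]

theorem one_mask {u : ℕ → Finset ℕ → ℝ} (T : ℕ) {p : ℕ} (hp : p < 9) {l : List (ℕ × ℕ × ℤ)}
    (hl : ∀ e ∈ l, e.1 = p) :
    ∑ m ∈ range 512, (if bit m p = true then (l.map fun e => one1 u T (m - 2 ^ p) e).sum else 0)
      = ∑ m ∈ range 512, (l.map fun e => one1 u T m e).sum := by
  rw [sum_remove hp fun m => (l.map fun e => one1 u T m e).sum]
  refine sum_congr rfl fun m hm => ?_
  cases hb : bit m p
  · simp
  · refine (List.sum_eq_zero fun x hx => ?_).symm
    obtain ⟨e, he, rfl⟩ := List.mem_map.1 hx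
    simp [one1, ann1, hl e he, mem_mset, hp, hb]

theorem two_mask {u : ℕ → Finset ℕ → ℝ} (L : ℕ) {a b : ℕ} (hab : a < b) (hb9 : b < 9)
    {l : List ((ℕ × ℕ) × (ℕ × ℕ) × ℤ)} (hl : ∀ e ∈ l, e.1 = (a, b)) :
    ∑ m ∈ range 512,
        (if bit m b = true ∧ bit m a = true then (l.map fun e => two1 u L (m - 2 ^ a - 2 ^ b) e).sum
          else 0)
      = ∑ m ∈ range 512, (l.map fun e => two1 u L m e).sum := by
  have ha9 : a < 9 := hab.trans hb9
  set f : ℕ → ℝ := fun m => (l.map fun e => two1 u L m e).sum with hf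
  have z : ∀ m, bit m a = true ∨ bit m b = true → f m = 0 := fun m h => by
    refine List.sum_eq_zero fun x hx => ?_
    obtain ⟨e, he, rfl⟩ := List.mem_map.1 hx
    rcases h with h | h <;>
      simp [two1, ann2, ann1, hl e he, mem_mset, ha9, hb9, h]
  calc _ = ∑ m ∈ range 512, (if bit m a = true then
        (if bit (m - 2 ^ a) b = true then f (m - 2 ^ a - 2 ^ b) else 0) else 0) := by
        refine sum_congr rfl fun m hm => ?_
        by_cases h : bit m a = true
        · rw [if_pos h, bit_other (mem_range.1 hm) ha9 hb9 hab.ne' h]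
          simp [h, hf]
        · simp [h]
    _ = ∑ m ∈ range 512, (if bit m a = false then
        (if bit m b = true then f (m - 2 ^ b) else 0) else 0) :=
        sum_remove ha9 fun m => if bit m b = true then f (m - 2 ^ b) else 0
    _ = ∑ m ∈ range 512, (if bit m b = true then f (m - 2 ^ b) else 0) := by
        refine sum_congr rfl fun m hm => ?_
        cases h : bit m a
        · simp
        · cases h' : bit m b
          · simp
          · have hlt : m - 2 ^ b < 512 := lt_of_le_of_lt (Nat.sub_le _ _) (mem_range.1 hm)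
            have h2 : bit (m - 2 ^ b) a = true := by
              rw [bit_other (mem_range.1 hm) hb9 ha9 hab.ne h']; exact h
            simp [z _ (Or.inl h2)]
    _ = ∑ m ∈ range 512, (if bit m b = false then f m else 0) := sum_remove hb9 f
    _ = ∑ m ∈ range 512, f m := by
        refine sum_congr rfl fun m hm => ?_
        cases h : bit m b
        · simp
        · simp [z m (Or.inr h)]

theorem diag_total (u : ℕ → Finset ℕ → ℝ) :
    ∑ i ∈ range 6, ∑ m ∈ range 512, (coef (0, diag.getD i 0 * cop m, i * 512 + m) : ℝ) *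
        (u i (mset m) * stU u (i * 512 + m)) = scaleK * fockDiag u := by
  rw [fockDiag, mul_sum, mul_sum]
  refine sum_congr rfl fun i hi => ?_
  rw [sum_occs, mul_sum, mul_sum]
  refine sum_congr rfl fun m hm => ?_
  have hm' := mem_range.1 hm
  have hd := (diag_ok i (mem_range.1 hi)).2
  have hd' : (diag.getD i 0 : ℝ) * (i.factorial : ℝ) = 10920 * 2 ^ i * (rhoNum.getD i 0 : ℝ) := by
    exact_mod_cast hd
  have h := scale_val hm' (rhoNum.getD i 0)
  have hf : (i.factorial : ℝ) ≠ 0 := by positivity
  rw [stU_mk u _ hm']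
  simp only [coef, if_true]
  push_cast
  rw [nX, cLoc, div_mul_eq_div_div, div_div_eq_mul_div,
    show scaleK * (91 / 100 * (val (rhoNum.getD i 0) * 2 ^ i / (i.factorial : ℝ) / (prF (mset m) : ℝ)
        * u i (mset m) ^ 2))
      = 91 / 100 * 2 ^ i / (i.factorial : ℝ) * u i (mset m) ^ 2
        * (scaleK * (val (rhoNum.getD i 0) / (prF (mset m) : ℝ))) by ring, h]
  field_simp
  linear_combination (100 * (cop m : ℝ) * u i (mset m) ^ 2) * hd'

theorem one_total (u : ℕ → Finset ℕ → ℝ) :
    ∑ i ∈ range 6, ∑ m ∈ range 512, ∑ p ∈ range 9,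
        ((wTerms i m p).map fun t => (coef t : ℝ) * (u i (mset m) * stU u t.2.2)).sum
      = -(scaleK * fockOne u) := by
  have e1 : scaleK * fockOne u = ∑ T ∈ range 14, ∑ m ∈ range 512,
      ((wNum.getD T []).map fun e => one1 u T m e).sum := by
    rw [fockOne, sum_occs, sum_comm, mul_sum]
    refine sum_congr rfl fun T _ => ?_
    rw [mul_sum]
    refine sum_congr rfl fun m hm => ?_
    rw [← List.sum_map_mul_left]
    refine congrArg List.sum (List.map_congr_left fun e _ => ?_)
    rw [← mul_assoc, scale_val (mem_range.1 hm)]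
    rfl
  have e2 : ∀ T ∈ range 14, ∑ m ∈ range 512, ((wNum.getD T []).map fun e => one1 u T m e).sum
      = ∑ p ∈ range 9, ∑ m ∈ range 512,
          (((wNum.getD T []).filter fun e => e.1 == p).map fun e => one1 u T m e).sum := by
    intro T hT
    rw [sum_comm]
    exact sum_congr rfl fun m _ => sum_by_key _ _ _ fun e he =>
      (supportOK.1 T (mem_range.1 hT) e he).1
  rw [e1, sum_congr rfl e2, sum_comm (s := range 14), ← sum_neg_distrib,
    sum_congr rfl fun i hi => sum_comm, sum_comm (s := range 6)]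
  refine sum_congr rfl fun p hp => ?_
  have hp' := mem_range.1 hp
  rw [sum_shift (N := 14) (p := p) (by omega) _ (fun T hT hn => ?_), ← sum_neg_distrib]
  · refine sum_congr rfl fun i hi => ?_
    rw [sum_congr rfl fun m hm => w_sum (mem_range.1 hi) (mem_range.1 hm) hp']
    rw [← one_mask (i + p) hp' (fun e he => by simpa using (List.mem_filter.1 he).2),
      ← sum_neg_distrib]
    exact sum_congr rfl fun m _ => by split <;> simp
  · refine sum_eq_zero fun m _ => List.sum_eq_zero fun x hx => ?_
    obtain ⟨e, he, rfl⟩ := List.mem_map.1 hx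
    obtain ⟨he, hep⟩ := List.mem_filter.1 he
    have h := supportOK.1 T hT e he
    simp only [beq_iff_eq] at hep
    omega

theorem two_total (u : ℕ → Finset ℕ → ℝ) :
    ∑ i ∈ range 6, ∑ m ∈ range 512, ∑ b ∈ range 9, ∑ a ∈ range b,
        ((lamTerms i m b a).map fun t => (coef t : ℝ) * (u i (mset m) * stU u t.2.2)).sum
      = scaleK * fockTwo u := by
  have e1 : scaleK * fockTwo u = ∑ L ∈ range 21, ∑ m ∈ range 512,
      ((lamNum.getD L []).map fun e => two1 u L m e).sum := by
    rw [fockTwo, sum_occs, sum_comm, mul_sum]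
    refine sum_congr rfl fun T _ => ?_
    rw [mul_sum]
    refine sum_congr rfl fun m hm => ?_
    rw [← List.sum_map_mul_left]
    refine congrArg List.sum (List.map_congr_left fun e _ => ?_)
    rw [← mul_assoc, scale_val (mem_range.1 hm)]
    rfl
  have e2 : ∀ L ∈ range 21, ∑ m ∈ range 512, ((lamNum.getD L []).map fun e => two1 u L m e).sum
      = ∑ b ∈ range 9, ∑ a ∈ range b, ∑ m ∈ range 512,
          ((((lamNum.getD L []).filter fun e => e.1.2 == b).filter fun e => e.1.1 == a).map
            fun e => two1 u L m e).sum := by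
    intro L hL
    conv_rhs => arg 2; ext b; rw [sum_comm]
    rw [sum_comm (s := range 9)]
    refine sum_congr rfl fun m _ => ?_
    rw [sum_by_key (fun e : (ℕ × ℕ) × (ℕ × ℕ) × ℤ => e.1.2) (N := 9) _ _ fun e he =>
      (supportOK.2 L (mem_range.1 hL) e he).1.2.1]
    refine sum_congr rfl fun b _ => sum_by_key _ _ _ fun e he => ?_
    obtain ⟨he, heb⟩ := List.mem_filter.1 he
    simp only [beq_iff_eq] at heb
    exact heb ▸ (supportOK.2 L (mem_range.1 hL) e he).1.1
  rw [e1, sum_congr rfl e2, sum_comm (s := range 21),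
    sum_congr rfl fun i hi => sum_comm, sum_comm (s := range 6)]
  refine sum_congr rfl fun b hb => ?_
  rw [sum_comm (s := range 21), sum_congr rfl fun i hi => sum_comm, sum_comm (s := range 6)]
  refine sum_congr rfl fun a ha => ?_
  have hb' := mem_range.1 hb
  have hab := mem_range.1 ha
  rw [sum_shift (N := 21) (p := a + b) (by omega) _ (fun L hL hn => ?_)]
  · refine sum_congr rfl fun i hi => ?_
    rw [sum_congr rfl fun m hm => lam_sum (mem_range.1 hi) (mem_range.1 hm) hab hb',
      two_mask (i + (a + b)) hab hb' (fun e he => ?_)]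
    simp only [List.mem_filter, beq_iff_eq] at he
    exact Prod.ext he.2 he.1.2
  · refine sum_eq_zero fun m _ => List.sum_eq_zero fun x hx => ?_
    obtain ⟨e, he, rfl⟩ := List.mem_map.1 hx
    simp only [List.mem_filter, beq_iff_eq] at he
    obtain ⟨⟨-, -, h3, h4⟩, -⟩ := supportOK.2 L hL e he.1.1
    omega

theorem rows_eq (u : ℕ → Finset ℕ → ℝ) :
    ∑ n ∈ range 3072, ((rowT n).map fun t => (coef t : ℝ) * (stU u n * stU u t.2.2)).sum
      = scaleK * (fockDiag u - fockOne u + fockTwo u) := by
  rw [show (3072 : ℕ) = 6 * 512 from rfl]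
  have e : ∀ n, ((rowT n).map fun t => (coef t : ℝ) * (stU u n * stU u t.2.2)).sum
      = (coef (0, diag.getD (n / 512) 0 * cop (n % 512), n / 512 * 512 + n % 512) : ℝ) *
          (u (n / 512) (mset (n % 512)) * stU u (n / 512 * 512 + n % 512))
        + ((∑ p ∈ range 9, ((wTerms (n / 512) (n % 512) p).map fun t =>
              (coef t : ℝ) * (u (n / 512) (mset (n % 512)) * stU u t.2.2)).sum)
          + ∑ b ∈ range 9, ∑ a ∈ range b, ((lamTerms (n / 512) (n % 512) b a).map fun t =>
              (coef t : ℝ) * (u (n / 512) (mset (n % 512)) * stU u t.2.2)).sum) := by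
    intro n
    rw [Nat.div_add_mod' n 512]
    simp only [rowT, List.map_cons, List.sum_cons, List.map_append, List.sum_append, sum_flatMap,
      sum_map_range, stU]
  rw [sum_congr rfl fun n _ => e n, sum_split (by norm_num) fun i m =>
    (coef (0, diag.getD i 0 * cop m, i * 512 + m) : ℝ) * (u i (mset m) * stU u (i * 512 + m))
      + ((∑ p ∈ range 9, ((wTerms i m p).map fun t => (coef t : ℝ) * (u i (mset m) * stU u t.2.2)).sum)
        + ∑ b ∈ range 9, ∑ a ∈ range b,
            ((lamTerms i m b a).map fun t => (coef t : ℝ) * (u i (mset m) * stU u t.2.2)).sum)]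
  simp only [sum_add_distrib]
  rw [diag_total, one_total, two_total]
  ring

end Local

/-- **The local inequality in occupation numbers.** -/
theorem fockOK : FockOK := by
  intro u
  have h := Local.rows_nonneg (Local.stU u)
  rw [Local.rows_eq u] at h
  exact (mul_nonneg_iff_of_pos_left (by unfold Local.scaleK; norm_num)).1 h

end Vale.Agent.P359.Cert
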