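import Vale.Agent.P359.Cert.Planar

/-!
# P359: the certificate as coefficient tables on the window

The planar data as functions on `Fin 6` pair weights and `Fin 9` orbitals, in monomial coordinates
(`Point.winD0/1/2` restore the orthonormal scales `√nX`, `√(a!)`); the two-body table is for ordered
pairs of slots.
-/

namespace Vale.Agent.P359.Cert

/-- The scale of a pair weight. -/
noncomputable def scX (i : Fin 6) : ℝ := Real.sqrt (nX (i : ℕ))

/-- The scale of an orbital. -/
noncomputable def scO (a : Fin 9) : ℝ := Real.sqrt ((a : ℕ).factorial : ℝ)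

/-- The pair table. -/
noncomputable def rhoC (i j : Fin 6) : ℝ :=
  if i = j then cLoc * rhoR i / nX (i : ℕ) else 0

/-- The one-body table. -/
noncomputable def wC (x y : Fin 6 × Fin 9) : ℝ :=
  if (x.1 : ℕ) + x.2 = y.1 + y.2 then
    (((wNum.getD ((x.1 : ℕ) + x.2) []).filter fun e => e.1 = x.2.val ∧ e.2.1 = y.2.val).map
      fun e => val e.2.2).sum
  else 0

/-- The two-body table, for ordered pairs of slots. -/
noncomputable def lamC (x y : (Fin 6 × Fin 9) × Fin 9) : ℝ :=
  if (x.1.1 : ℕ) + x.1.2 + x.2 = y.1.1 + y.1.2 + y.2 then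
    (1 / 4) * (((lamNum.getD ((x.1.1 : ℕ) + x.1.2 + x.2) []).map fun e =>
      val e.2.2 * anti (fun a b => if (a, b) = e.1 then 1 else 0) x.1.2 x.2 *
        anti (fun a b => if (a, b) = e.2.1 then 1 else 0) y.1.2 y.2).sum)
  else 0

theorem scX_ne_zero (i : Fin 6) : scX i ≠ 0 :=
  (Real.sqrt_pos.2 (by unfold nX; positivity)).ne'

theorem scO_ne_zero (a : Fin 9) : scO a ≠ 0 :=
  (Real.sqrt_pos.2 (by positivity)).ne'

theorem scO_sq (a : Fin 9) : scO a ^ 2 = ((a : ℕ).factorial : ℝ) :=
  Real.sq_sqrt (by positivity)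

theorem scX_sq (i : Fin 6) : scX i ^ 2 = nX (i : ℕ) :=
  Real.sq_sqrt (by unfold nX; positivity)

end Vale.Agent.P359.Cert
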