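import Vale.Agent.P359.Cert.Bridge
import Vale.Agent.P359.Cert.Table
import Vale.Agent.P359.Point.Goals

/-!
# P359: the sector hypothesis in the names of the certificate tables
-/

namespace Vale.Agent.P359.Cert

/-- The occupation-number inequality gives the sector hypothesis for the tables. -/
theorem sectors_of_fock (h : FockOK) (ψ : Fin 6 → Finset (Fin 9) → ℝ) :
    0 ≤ Point.sectorForm (fun a => 1 / scO a ^ 2) rhoC (fun R j => ψ j R)
      + Point.sectorForm (fun a => 1 / scO a ^ 2) (fun u v => -wC u v) (Point.out1 ψ)
      + Point.sectorForm (fun a => 1 / scO a ^ 2) lamC (Point.out2 ψ) := by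
  have e1 : (fun u v => -wC u v) = cert1 := by
    funext u v
    unfold wC cert1
    split_ifs <;> simp
  rw [e1]
  exact sectors_of_fockOK h ψ

theorem rhoC_symm (i j : Fin 6) : rhoC i j = rhoC j i := cert0_symm i j

theorem wC_symm (x y : Fin 6 × Fin 9) : wC x y = wC y x := by
  have e : ∀ u v, cert1 u v = -wC u v := fun u v => by
    unfold wC cert1
    split_ifs <;> simp
  exact neg_injective (by rw [← e, ← e]; exact cert1_symm x y)

theorem lamC_symm (x y : (Fin 6 × Fin 9) × Fin 9) : lamC x y = lamC y x := cert2_symm x y

/-- The occupation-number inequality gives the first certificate statement. -/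
theorem sectorGoal_of_fock (h : FockOK) : Point.SectorGoal :=
  ⟨wC_symm, lamC_symm, sectors_of_fock h⟩

end Vale.Agent.P359.Cert
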