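import Vale.Agent.P359.Cert.LocalSound
import Vale.Agent.P359.Cert.LocalSec0
import Vale.Agent.P359.Cert.LocalSec1
import Vale.Agent.P359.Cert.LocalSec2
import Vale.Agent.P359.Cert.LocalSec3
import Vale.Agent.P359.Cert.LocalSec4
import Vale.Agent.P359.Cert.LocalSec5

/-!
# P359: the sectors cover every state once
-/

namespace Vale.Agent.P359.Cert.Local

open Finset

/-- All sectors. -/
def secs : List Sec := secs0 ++ secs1 ++ secs2 ++ secs3 ++ secs4 ++ secs5

/-- A sector by its number. -/
noncomputable def secAt (k : ℕ) : Sec := nth (0, 0, 0, [], 0) secs k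

theorem secs_ok : secs.all (secOk row posT) = true := by
  simp only [secs, List.all_append, secs0_ok, secs1_ok, secs2_ok, secs3_ok, secs4_ok, secs5_ok,
    Bool.and_self]

theorem secs_length : secs.length = 180 := by decide +kernel

theorem cover_states : allR (fun n => and (Nat.ble (Nat.succ (posOf posT n)) (secAt (posOf secT n)).1)
    (and (Nat.ble (Nat.succ (posOf secT n)) 180)
      (Nat.beq (stOf (secAt (posOf secT n)) (posOf posT n)) n))) 3072 = true := by decide +kernel

/-- The places of a sector are the places of its states. -/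
noncomputable def placeOk (num : ℕ) : Bool :=
  allR (fun x => and (Nat.ble (Nat.succ (stOf (secAt num) x)) 3072)
    (and (Nat.beq (posOf secT (stOf (secAt num) x)) num) (Nat.beq (posOf posT (stOf (secAt num) x)) x)))
    (secAt num).1

theorem cover_places : allR placeOk 180 = true :=
  by decide +kernel

theorem secAt_ok {k : ℕ} (hk : k < 180) : secOk row posT (secAt k) = true := by
  have h := secs_ok
  rw [List.all_eq_true] at h
  refine h _ ?_
  rw [secAt, nth_eq, List.getD_eq_getElem _ _ (secs_length.symm ▸ hk)]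
  exact List.getElem_mem _

theorem state_place {n : ℕ} (hn : n < 3072) : posOf posT n < (secAt (posOf secT n)).1 ∧
    posOf secT n < 180 ∧ stOf (secAt (posOf secT n)) (posOf posT n) = n := by
  have h := (allR_iff _ _).1 cover_states n hn
  simpa only [Bool.and_eq_true, Nat.ble_eq, Nat.beq_eq, Nat.succ_le_iff] using h

theorem place_state {k x : ℕ} (hk : k < 180) (hx : x < (secAt k).1) :
    stOf (secAt k) x < 3072 ∧ posOf secT (stOf (secAt k) x) = k ∧
      posOf posT (stOf (secAt k) x) = x := by
  have h := (allR_iff _ _).1 ((allR_iff _ _).1 cover_places k hk) x hx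
  simpa only [Bool.and_eq_true, Nat.ble_eq, Nat.beq_eq, Nat.succ_le_iff] using h

theorem sum_cover {β : Type*} [AddCommMonoid β] {K N : ℕ} {d kOf xOf : ℕ → ℕ} {st : ℕ → ℕ → ℕ}
    (h1 : ∀ n < N, xOf n < d (kOf n) ∧ kOf n < K ∧ st (kOf n) (xOf n) = n)
    (h2 : ∀ k < K, ∀ x < d k, st k x < N ∧ kOf (st k x) = k ∧ xOf (st k x) = x) (G : ℕ → β) :
    ∑ k ∈ range K, ∑ x ∈ range (d k), G (st k x) = ∑ n ∈ range N, G n := by
  rw [sum_sigma']
  refine sum_nbij' (fun p => st p.1 p.2) (fun n => ⟨kOf n, xOf n⟩)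
    (fun p hp => ?_) (fun n hn => ?_) (fun p hp => ?_) (fun n hn => ?_) (fun p _ => rfl)
  · simp only [mem_coe, mem_sigma, mem_range] at hp ⊢
    exact (h2 _ hp.1 _ hp.2).1
  · simp only [mem_coe, mem_sigma, mem_range] at hn ⊢
    exact ⟨(h1 n hn).2.1, (h1 n hn).1⟩
  · simp only [mem_coe, mem_sigma, mem_range] at hp
    exact Sigma.ext (h2 _ hp.1 _ hp.2).2.1 (heq_of_eq (h2 _ hp.1 _ hp.2).2.2)
  · exact (h1 n (by simpa using hn)).2.2

theorem sum_states {β : Type*} [AddCommMonoid β] (G : ℕ → β) :
    ∑ k ∈ range 180, ∑ x ∈ range (secAt k).1, G (stOf (secAt k) x) = ∑ n ∈ range 3072, G n :=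
  sum_cover (d := fun k => (secAt k).1) (kOf := posOf secT) (xOf := posOf posT)
    (st := fun k x => stOf (secAt k) x) (fun _ hn => state_place hn)
    (fun _ hk _ hx => place_state hk hx) G

/-- The form of all rows is nonnegative. -/
theorem rows_nonneg (U : ℕ → ℝ) :
    0 ≤ ∑ n ∈ range 3072, ((rowT n).map fun t => (coef t : ℝ) * (U n * U t.2.2)).sum := by
  rw [← sum_states]
  exact sum_nonneg fun k hk => secOk_sound (secAt_ok (mem_range.1 hk)) U

end Vale.Agent.P359.Cert.Local
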