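import Vale.Agent.P359.Cert.LocalTables

/-!
# P359: soundness of the sector test
-/

namespace Vale.Agent.P359.Cert.Local

open Finset

/-! ### The recursors -/

theorem sumL_eq {α : Type} (f : α → ℕ) (l : List α) : sumL f l = (l.map f).sum := by
  induction l with
  | nil => rfl
  | cons a l ih => rw [List.map_cons, List.sum_cons, ← ih]; rfl

theorem sumR_eq (f : ℕ → ℕ) (n : ℕ) : sumR f n = ∑ i ∈ range n, f i := by
  induction n with
  | zero => rfl
  | succ n ih => rw [sum_range_succ, ← ih]; rfl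

theorem allR_iff (f : ℕ → Bool) (n : ℕ) : allR f n = true ↔ ∀ i < n, f i = true := by
  induction n with
  | zero => simp [allR]
  | succ n ih =>
    have e : allR f (n + 1) = (allR f n && f n) := rfl
    rw [e, Bool.and_eq_true, ih]
    exact ⟨fun h i hi => (Nat.lt_succ_iff_lt_or_eq.1 hi).elim (h.1 i) (fun e => e ▸ h.2),
      fun h => ⟨fun i hi => h i (Nat.lt_succ_of_lt hi), h n n.lt_succ_self⟩⟩

theorem nth_eq {α : Type} (d : α) : ∀ (l : List α) (n : ℕ), nth d l n = l.getD n d
  | [], n => by simp [nth]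
  | a :: l, 0 => by simp [nth]
  | a :: l, n + 1 => by simp only [List.getD_cons_succ, ← nth_eq d l n]; rfl

theorem field_eq (P w j : ℕ) : field P w j = P / 2 ^ (w * j) % 2 ^ w := by
  simp [field, Nat.shiftRight_eq_div_pow, Nat.shiftLeft_eq]

theorem field_lt (P w j : ℕ) : field P w j < 2 ^ w := by
  rw [field_eq]; exact Nat.mod_lt _ (by positivity)

theorem digit_of {B : ℕ} (hB : 0 < B) : ∀ (d : ℕ) (f : ℕ → ℕ), (∀ j < d, f j < B) →
    (∑ j ∈ range d, f j * B ^ j) < B ^ d ∧
      ∀ y < d, (∑ j ∈ range d, f j * B ^ j) / B ^ y % B = f y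
  | 0, f, _ => ⟨by simp, fun y hy => absurd hy y.not_lt_zero⟩
  | d + 1, f, hf => by
    obtain ⟨h1, h2⟩ := digit_of hB d (fun j => f (j + 1)) fun j hj => hf _ (by omega)
    have h0 := hf 0 (by omega)
    have e : ∑ j ∈ range (d + 1), f j * B ^ j = f 0 + B * ∑ j ∈ range d, f (j + 1) * B ^ j := by
      rw [sum_range_succ', mul_sum, add_comm]
      simp only [pow_zero, mul_one]
      exact congrArg _ (sum_congr rfl fun j _ => by ring)
    rw [e]
    refine ⟨?_, fun y hy => ?_⟩
    · have := Nat.mul_le_mul_left B (Nat.succ_le_of_lt h1)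
      rw [Nat.mul_succ] at this
      rw [pow_succ, mul_comm (B ^ d) B]
      omega
    · rcases y with _ | y
      · simp [Nat.add_mul_mod_self_left, Nat.mod_eq_of_lt h0]
      · rw [pow_succ', ← Nat.div_div_eq_div_mul, Nat.add_mul_div_left _ _ hB,
          Nat.div_eq_of_lt h0, zero_add]
        exact h2 y (by omega)

/-! ### The terms of a row -/

/-- The one-body terms of a row: parity, magnitude, second state. -/
noncomputable def wTerms (i m p : ℕ) : List (ℕ × ℕ × ℕ) :=
  if bit m p then ((wRows.getD (i + p) []).getD p []).flatMap fun e =>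
    if bit (m - 2 ^ p) e.1 then [] else
      [((e.2.1 + par (m - 2 ^ p) p + par (m - 2 ^ p) e.1) % 2, e.2.2 * cop (m - 2 ^ p),
        (i + p - e.1) * 512 + (m - 2 ^ p + 2 ^ e.1))]
  else []

/-- The two-body terms of a row. -/
noncomputable def lamTerms (i m b a : ℕ) : List (ℕ × ℕ × ℕ) :=
  if bit m b ∧ bit m a then (((lamRows.getD (i + (a + b)) []).getD b []).getD a []).flatMap fun e =>
    if bit (m - 2 ^ a - 2 ^ b) e.1 ∨ bit (m - 2 ^ a - 2 ^ b) e.2.1 then [] else
      [((e.2.2.1 + (par (m - 2 ^ a - 2 ^ b) b + par (m - 2 ^ a - 2 ^ b + 2 ^ b) a)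
          + (par (m - 2 ^ a - 2 ^ b) e.2.1 + par (m - 2 ^ a - 2 ^ b + 2 ^ e.2.1) e.1)) % 2,
        e.2.2.2 * cop (m - 2 ^ a - 2 ^ b),
        (i + (a + b) - (e.1 + e.2.1)) * 512 + (m - 2 ^ a - 2 ^ b + 2 ^ e.2.1 + 2 ^ e.1))]
  else []

/-- All terms of a row. -/
noncomputable def rowT (n : ℕ) : List (ℕ × ℕ × ℕ) :=
  (0, diag.getD (n / 512) 0 * cop (n % 512), n) ::
    ((List.range 9).flatMap (wTerms (n / 512) (n % 512)) ++
      (List.range 9).flatMap fun b => (List.range b).flatMap (lamTerms (n / 512) (n % 512) b))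

theorem sum_flatMap {α γ β : Type*} [AddCommMonoid β] (l : List α) (f : α → List γ) (g : γ → β) :
    ((l.flatMap f).map g).sum = (l.map fun a => ((f a).map g).sum).sum := by
  induction l with
  | nil => simp
  | cons a l ih => simp [ih]

theorem sum_map_range {β : Type*} [AddCommMonoid β] (n : ℕ) (f : ℕ → β) :
    ((List.range n).map f).sum = ∑ i ∈ range n, f i := rfl

theorem nat_mod (a b : ℕ) : Nat.mod a b = a % b := rfl

theorem and_one' (n : ℕ) : Nat.land n 1 = n % 2 := Nat.and_one_is_mod n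

theorem row_eq (g : ℕ → ℕ → ℕ → ℕ) (n : ℕ) :
    row g n = ((rowT n).map fun t => g t.1 t.2.1 t.2.2).sum := by
  have e511 : Nat.land n 511 = n % 512 := Nat.and_two_pow_sub_one_eq_mod n 9
  have e9 : Nat.shiftRight n 9 = n / 512 := Nat.shiftRight_eq_div_pow n 9
  simp only [row, rowV, rowT, e511, e9, sumR_eq, sumL_eq, nth_eq, List.map_cons, List.sum_cons,
    List.map_append, List.sum_append, sum_flatMap, sum_map_range, Nat.add_eq, Nat.mul_eq,
    Nat.sub_eq, Nat.shiftLeft_eq', Nat.shiftLeft_eq, one_mul, and_one', add_assoc]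
  refine congrArg₂ (· + ·) rfl (congrArg₂ (· + ·) (sum_congr rfl fun p _ => ?_)
    (sum_congr rfl fun b _ => ?_))
  · cases hp : bit (n % 512) p
    · simp [wTerms, hp]
    · simp only [wTerms, hp, if_true, cond_true, sum_flatMap]
      refine congrArg List.sum (List.map_congr_left fun e _ => ?_)
      cases he : bit (n % 512 - 2 ^ p) e.1 <;> simp [add_assoc]
  · cases hb : bit (n % 512) b
    · simp [lamTerms, hb]
    · simp only [cond_true]
      refine sum_congr rfl fun a _ => ?_
      cases ha : bit (n % 512) a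
      · simp [lamTerms, ha]
      · simp only [lamTerms, hb, ha, and_self, if_true, cond_true, sum_flatMap]
        refine congrArg List.sum (List.map_congr_left fun e _ => ?_)
        cases he : bit (n % 512 - 2 ^ a - 2 ^ b) e.1 <;>
          cases he' : bit (n % 512 - 2 ^ a - 2 ^ b) e.2.1 <;> simp [add_assoc]

/-! ### Signed entries -/

/-- The signed coefficient of a term. -/
def coef (t : ℕ × ℕ × ℕ) : ℤ := if t.1 = 0 then (t.2.1 : ℤ) else -(t.2.1 : ℤ)

theorem natAbs_coef (t : ℕ × ℕ × ℕ) : |coef t| = (t.2.1 : ℤ) := by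
  unfold coef; split <;> simp

/-- The scaled entry of the factor. -/
noncomputable def rZ (S : Sec) (x k : ℕ) : ℤ := ((rTil S x k : ℤ) - 8388608) * 2 ^ expOf S x

/-- An entry of the matrix of a row within its sector. -/
noncomputable def entA (pos : List ℕ) (S : Sec) (x y : ℕ) : ℤ :=
  ((rowT (stOf S x)).map fun t => if posOf pos t.2.2 = y then coef t else 0).sum

/-- An entry of the remainder. -/
noncomputable def entE (pos : List ℕ) (S : Sec) (x y : ℕ) : ℤ :=
  entA pos S x y - ∑ k ∈ range S.1, rZ S x k * rZ S y k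

theorem rZ_abs {S : Sec} {x : ℕ} (he : expOf S x ≤ 45) (k : ℕ) : |rZ S x k| ≤ 2 ^ 68 := by
  have h : rTil S x k < 2 ^ 24 := field_lt _ _ _
  have h1 : |(rTil S x k : ℤ) - 8388608| ≤ 2 ^ 23 := by rw [abs_le]; omega
  have h2 : (2 : ℤ) ^ expOf S x ≤ 2 ^ 45 := pow_le_pow_right₀ (by norm_num) he
  rw [rZ, abs_mul, abs_pow, abs_two]
  exact (mul_le_mul h1 h2 (by positivity) (by positivity)).trans (by norm_num)

theorem sum_abs_le {α : Type*} (l : List α) (f : α → ℤ) :
    |(l.map f).sum| ≤ (l.map fun a => |f a|).sum := by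
  induction l with
  | nil => simp
  | cons a l ih => simp only [List.map_cons, List.sum_cons]; exact (abs_add_le _ _).trans (by linarith)

/-- The facts that the test gives for one row. -/
structure RowFacts (pos : List ℕ) (S : Sec) (x : ℕ) : Prop where
  inside : ∀ t ∈ rowT (stOf S x), posOf pos t.2.2 < S.1 ∧ stOf S (posOf pos t.2.2) = t.2.2
  total : ((rowT (stOf S x)).map fun t => t.2.1).sum ≤ 2 ^ 144

theorem rowFacts {pos : List ℕ} {S : Sec} {x : ℕ} (h : rowBound row pos S x = true) :
    RowFacts pos S x := by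
  simp only [rowBound, Nat.ble_eq, row_eq, Nat.shiftLeft_eq', Nat.shiftLeft_eq, one_mul] at h
  have ok : ∀ t ∈ rowT (stOf S x),
      (Nat.ble (posOf pos t.2.2).succ S.1 && Nat.beq (stOf S (posOf pos t.2.2)) t.2.2) = true := by
    intro t ht
    by_contra hc
    rw [Bool.not_eq_true] at hc
    have := List.single_le_sum (fun a _ => Nat.zero_le a) _
      (List.mem_map.2 ⟨t, ht, rfl⟩) |>.trans h
    rw [hc, cond_false] at this
    norm_num at this
  refine ⟨fun t ht => ?_, le_trans (le_of_eq ?_) h⟩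
  · have := ok t ht
    simpa [Nat.ble_eq, Nat.beq_eq, Nat.succ_le_iff] using this
  · refine congrArg List.sum (List.map_congr_left fun t ht => ?_)
    rw [ok t ht, cond_true]

theorem entA_abs {pos : List ℕ} {S : Sec} {x : ℕ} (h : RowFacts pos S x) (y : ℕ) :
    |entA pos S x y| ≤ 2 ^ 144 := by
  refine (sum_abs_le _ _).trans ?_
  have h1 : ((rowT (stOf S x)).map fun t => |if posOf pos t.2.2 = y then coef t else 0|).sum
      ≤ ((rowT (stOf S x)).map fun t => ((t.2.1 : ℕ) : ℤ)).sum := by
    refine List.sum_le_sum fun t _ => ?_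
    split <;> simp [natAbs_coef]
  refine h1.trans ?_
  have := h.total
  have e : ((rowT (stOf S x)).map fun t => ((t.2.1 : ℕ) : ℤ)).sum
      = ((((rowT (stOf S x)).map fun t => t.2.1).sum : ℕ) : ℤ) := by
    rw [Nat.cast_list_sum, List.map_map]; rfl
  rw [e]; exact_mod_cast this

theorem sum_swap {α : Type*} {R : Type*} [CommRing R] (l : List α) (d : ℕ) (f : α → ℕ → R) :
    ∑ y ∈ range d, (l.map fun a => f a y).sum = (l.map fun a => ∑ y ∈ range d, f a y).sum := by
  induction l with
  | nil => simp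
  | cons a l ih => simp [sum_add_distrib, ih]

theorem row_expand {R : Type*} [CommRing R] {pos : List ℕ} {S : Sec} {x : ℕ}
    (h : RowFacts pos S x) (F : ℕ → R) :
    ∑ y ∈ range S.1, (entA pos S x y : R) * F y
      = ((rowT (stOf S x)).map fun t => (coef t : R) * F (posOf pos t.2.2)).sum := by
  have e : ∀ y, (entA pos S x y : R) * F y
      = ((rowT (stOf S x)).map fun t => if posOf pos t.2.2 = y then (coef t : R) * F y else 0).sum := by
    intro y
    rw [entA, Int.cast_list_sum, List.map_map, ← List.sum_map_mul_right]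
    exact congrArg List.sum (List.map_congr_left fun t _ => by simp [Function.comp])
  simp only [e, sum_swap]
  refine congrArg List.sum (List.map_congr_left fun t ht => ?_)
  simp [(h.inside t ht).1]

theorem cast_cond_rep {M v : ℕ} (h : v ≤ M) (b : Bool) :
    ((cond b v (M - v) : ℕ) : ZMod M) = cond b (v : ZMod M) (-(v : ZMod M)) := by
  cases b <;> simp [Nat.cast_sub h]

theorem entry_eq {pos : List ℕ} {S : Sec} {x y : ℕ} (hd : S.1 ≤ 65)
    (he : ∀ j < S.1, expOf S j ≤ 45) (hr : RowFacts pos S x) (hx : x < S.1) (hy : y < S.1) :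
    |entE pos S x y| < 2 ^ 145 ∧
      (entry row pos S x y : ℤ) = entE pos S x y + 2 ^ 145 := by
  have bound : ∀ j < S.1, |entE pos S x j| < 2 ^ 145 := by
    intro j hj
    have h1 : |∑ k ∈ range S.1, rZ S x k * rZ S j k| ≤ 65 * 2 ^ 136 := by
      refine (abs_sum_le_sum_abs _ _).trans ((sum_le_card_nsmul _ _ (2 ^ 136) fun k _ => ?_).trans ?_)
      · rw [abs_mul]
        exact (mul_le_mul (rZ_abs (he x hx) k) (rZ_abs (he j hj) k) (abs_nonneg _)
          (by positivity)).trans (by norm_num)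
      · rw [card_range, nsmul_eq_mul]
        exact mul_le_mul_of_nonneg_right (by exact_mod_cast hd) (by positivity)
    calc |entE pos S x j| ≤ |entA pos S x j| + |∑ k ∈ range S.1, rZ S x k * rZ S j k| := abs_sub _ _
      _ ≤ 2 ^ 144 + 65 * 2 ^ 136 := add_le_add (entA_abs hr j) h1
      _ < 2 ^ 145 := by norm_num
  refine ⟨bound y hy, ?_⟩
  set f : ℕ → ℕ := fun j => (entE pos S x j + 2 ^ 145).toNat with hf
  have hfz : ∀ j < S.1, (f j : ℤ) = entE pos S x j + 2 ^ 145 := fun j hj =>
    Int.toNat_of_nonneg (by have := (abs_lt.1 (bound j hj)).1; linarith)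
  have hlt : ∀ j < S.1, f j < 2 ^ 146 := fun j hj => by
    have := (abs_lt.1 (bound j hj)).2
    have : (f j : ℤ) < ((2 ^ 146 : ℕ) : ℤ) := by rw [hfz j hj]; push_cast; linarith
    exact_mod_cast this
  obtain ⟨hsum, hdig⟩ := digit_of (B := 2 ^ 146) (by positivity) S.1 f hlt
  set M := modulus S with hM
  have hM' : M = (2 ^ 146) ^ S.1 := by simp [hM, modulus, Nat.shiftLeft_eq, pow_mul]
  have hMbig : 2 ^ 146 ≤ M := by
    rw [hM']; exact Nat.le_self_pow (by omega) _
  have key : remP row pos S x = ∑ j ∈ range S.1, f j * (2 ^ 146) ^ j := by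
    have hs : (∑ j ∈ range S.1, f j * (2 ^ 146) ^ j) % M = ∑ j ∈ range S.1, f j * (2 ^ 146) ^ j :=
      Nat.mod_eq_of_lt (hM' ▸ hsum)
    rw [← hs, remP]
    refine (ZMod.natCast_eq_natCast_iff' _ _ M).1 ?_
    have hrv : ∀ t ∈ rowT (stOf S x), t.2.1 ≤ M := by
      intro t ht
      have := List.single_le_sum (fun a _ => Nat.zero_le a) _
        (List.mem_map.2 ⟨t, ht, rfl⟩) |>.trans hr.total
      exact this.trans (le_trans (by norm_num) hMbig)
    have hrep : ∀ j < S.1, ∀ k, rRep S M j k ≤ M ∧ ((rRep S M j k : ℕ) : ZMod M) = (rZ S j k : ZMod M) := by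
      intro j hj k
      have h : rTil S j k < 2 ^ 24 := field_lt _ _ _
      have hp : 2 ^ expOf S j ≤ 2 ^ 45 := Nat.pow_le_pow_right (by norm_num) (he j hj)
      simp only [rRep, rZ, Nat.shiftLeft_eq', Nat.shiftLeft_eq, Nat.sub_eq]
      cases hb : Nat.ble 8388608 (rTil S j k)
      · have hlt' : rTil S j k < 8388608 := by
          by_contra hc
          rw [Nat.ble_eq_true_of_le (not_lt.1 hc)] at hb
          exact Bool.noConfusion hb
        have hle : (8388608 - rTil S j k) * 2 ^ expOf S j ≤ M :=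
          (Nat.mul_le_mul (Nat.sub_le _ _) hp).trans (le_trans (by norm_num) hMbig)
        refine ⟨Nat.sub_le _ _, ?_⟩
        simp only [cond_false]
        rw [Nat.cast_sub hle, ZMod.natCast_self, Nat.cast_mul, Nat.cast_sub hlt'.le]
        push_cast
        ring
      · have hge : 8388608 ≤ rTil S j k := Nat.le_of_ble_eq_true hb
        refine ⟨(Nat.mul_le_mul (show rTil S j k - 8388608 ≤ 2 ^ 24 by omega) hp).trans
          (le_trans (by norm_num) hMbig), ?_⟩
        simp only [cond_true]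
        rw [Nat.cast_mul, Nat.cast_sub hge]
        push_cast
        ring
    simp only [colP, offP, half, Nat.add_eq, Nat.mul_eq, Nat.sub_eq, Nat.shiftLeft_eq',
      Nat.shiftLeft_eq, one_mul, sumR_eq, row_eq, pow_mul, ← hM]
    have e2 : ∀ B : ℕ, ((((rowT (stOf S x)).map fun t => cond (Nat.beq t.1 0) t.2.1 (M - t.2.1)
          * B ^ posOf pos t.2.2).sum : ℕ) : ZMod M)
        = ∑ j ∈ range S.1, (entA pos S x j : ZMod M) * (B : ZMod M) ^ j := by
      intro B
      rw [row_expand hr, Nat.cast_list_sum, List.map_map]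
      refine congrArg List.sum (List.map_congr_left fun t ht => ?_)
      simp only [Function.comp, Nat.cast_mul, Nat.cast_pow, cast_cond_rep (hrv t ht), coef]
      rcases Nat.eq_zero_or_pos t.1 with h0 | h0
      · simp [h0]
      · have : Nat.beq t.1 0 = false := by
          cases hb : Nat.beq t.1 0
          · rfl
          · exact absurd (Nat.eq_of_beq_eq_true hb) h0.ne'
        simp [this, h0.ne']
    simp only [Nat.cast_add, e2, nat_mod, Nat.cast_sum, Nat.cast_mul, Nat.cast_pow,
      ZMod.natCast_mod, Nat.cast_ofNat]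
    have e3 : ∀ k, ((M - rRep S M x k : ℕ) : ZMod M) = -(rZ S x k : ZMod M) := fun k => by
      rw [Nat.cast_sub (hrep x hx k).1, ZMod.natCast_self, (hrep x hx k).2, zero_sub]
    have e4 : ∀ j ∈ range S.1, (f j : ZMod M) = (entE pos S x j : ZMod M) + (2 : ZMod M) ^ 145 := by
      intro j hj
      have := congrArg (Int.cast : ℤ → ZMod M) (hfz j (mem_range.1 hj))
      simp only [Int.cast_natCast, Int.cast_add, Int.cast_pow, Int.cast_ofNat] at this
      exact this
    rw [sum_congr rfl (fun j hj => by rw [e4 j hj]) (f := fun j => (f j : ZMod M) * _)]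
    simp only [entE, e3, Int.cast_sub, Int.cast_sum, Int.cast_mul, add_mul, sub_mul, sum_add_distrib,
      sum_sub_distrib, sum_mul]
    have e5 : ∀ k ∈ range S.1,
        -(rZ S x k : ZMod M) * ∑ j ∈ range S.1, (rRep S M j k : ZMod M) * ((2 : ZMod M) ^ 146) ^ j
          = -∑ j ∈ range S.1, (rZ S x k : ZMod M) * rZ S j k * ((2 : ZMod M) ^ 146) ^ j := by
      intro k _
      rw [mul_sum, ← sum_neg_distrib]
      exact sum_congr rfl fun j hj => by rw [(hrep j (mem_range.1 hj) k).2]; ring
    rw [sum_congr rfl e5, sum_neg_distrib, sum_comm, ← sub_eq_add_neg]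
  rw [entry, field_eq, key, pow_mul, hdig y hy, hfz y hy]

/-- A symmetric matrix dominated by its diagonal in some weights is nonnegative. -/
theorem dominant {d : ℕ} {E : ℕ → ℕ → ℝ} {W : ℕ → ℝ} (hW : ∀ x < d, 0 < W x)
    (hs : ∀ x < d, ∀ y < d, E x y = E y x)
    (hdom : ∀ x < d, ∑ y ∈ range d, |E x y| * W y ≤ 2 * E x x * W x) (u : ℕ → ℝ) :
    0 ≤ ∑ x ∈ range d, ∑ y ∈ range d, E x y * (u x * u y) := by
  set v : ℕ → ℝ := fun x => u x / W x with hv
  have hu : ∀ x ∈ range d, u x = W x * v x := fun x hx => by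
    rw [hv]; field_simp [(hW x (mem_range.1 hx)).ne']
  set F : ℕ → ℕ → ℝ := fun x y =>
    E x y * (u x * u y) + |E x y| * (W x * W y) * ((v x ^ 2 + v y ^ 2) / 2) with hF
  have hF0 : ∀ x ∈ range d, ∀ y ∈ range d, 0 ≤ F x y := by
    intro x hx y hy
    have hWW : 0 ≤ W x * W y := mul_nonneg (hW x (mem_range.1 hx)).le (hW y (mem_range.1 hy)).le
    have h1 : |v x * v y| ≤ (v x ^ 2 + v y ^ 2) / 2 := by
      rw [abs_le]; constructor <;> nlinarith [sq_nonneg (v x + v y), sq_nonneg (v x - v y)]
    simp only [hF, hu x hx, hu y hy]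
    have h2 : -(|E x y| * (W x * W y) * |v x * v y|) ≤ E x y * (W x * v x * (W y * v y)) := by
      have := neg_abs_le (E x y * (W x * W y) * (v x * v y))
      rw [abs_mul, abs_mul, abs_of_nonneg hWW] at this
      linarith
    have := mul_le_mul_of_nonneg_left h1 (mul_nonneg (abs_nonneg (E x y)) hWW)
    linarith
  have h3 : ∑ x ∈ range d, F x x ≤ ∑ x ∈ range d, ∑ y ∈ range d, F x y :=
    sum_le_sum fun x hx => single_le_sum (fun y hy => hF0 x hx y hy) hx
  have h4 : ∀ x ∈ range d, ∑ y ∈ range d, |E x y| * (W x * W y) * v x ^ 2 ≤ F x x := by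
    intro x hx
    have hx' := mem_range.1 hx
    have hd := hdom x hx'
    have hExx : 0 ≤ E x x := by
      have h0 : 0 ≤ ∑ y ∈ range d, |E x y| * W y :=
        sum_nonneg fun y hy => mul_nonneg (abs_nonneg _) (hW y (mem_range.1 hy)).le
      nlinarith [hW x hx']
    have e : ∑ y ∈ range d, |E x y| * (W x * W y) * v x ^ 2
        = W x * v x ^ 2 * ∑ y ∈ range d, |E x y| * W y := by
      rw [mul_sum]; exact sum_congr rfl fun y _ => by ring
    rw [e]
    simp only [hF, hu x hx, abs_of_nonneg hExx]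
    have := mul_le_mul_of_nonneg_left hd (mul_nonneg (hW x hx').le (sq_nonneg (v x)))
    linarith
  have h5 : ∑ x ∈ range d, ∑ y ∈ range d, |E x y| * (W x * W y) * v y ^ 2
      = ∑ x ∈ range d, ∑ y ∈ range d, |E x y| * (W x * W y) * v x ^ 2 := by
    rw [sum_comm]
    exact sum_congr rfl fun x hx => sum_congr rfl fun y hy => by
      rw [hs y (mem_range.1 hy) x (mem_range.1 hx)]; ring
  have h6 : ∑ x ∈ range d, ∑ y ∈ range d, F x y
      = ∑ x ∈ range d, ∑ y ∈ range d, E x y * (u x * u y)
        + ∑ x ∈ range d, ∑ y ∈ range d, |E x y| * (W x * W y) * v x ^ 2 := by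
    have : ∀ x y, F x y = E x y * (u x * u y) + (|E x y| * (W x * W y) * v x ^ 2) / 2
        + (|E x y| * (W x * W y) * v y ^ 2) / 2 := fun x y => by simp only [hF]; ring
    simp only [this, sum_add_distrib, ← sum_div, h5]
    ring
  have h7 := sum_le_sum h4
  linarith

/-- A sector that passes the test carries a nonnegative form. -/
theorem secOk_sound {pos : List ℕ} {S : Sec} (h : secOk row pos S = true) (U : ℕ → ℝ) :
    0 ≤ ∑ x ∈ range S.1,
      ((rowT (stOf S x)).map fun t => (coef t : ℝ) * (U (stOf S x) * U t.2.2)).sum := by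
  simp only [secOk, Bool.and_eq_true, allR_iff, Nat.ble_eq, rowDom, Nat.beq_eq, half, sumR_eq,
    Nat.add_eq, Nat.mul_eq, Nat.sub_eq, Nat.shiftLeft_eq', Nat.shiftLeft_eq, one_mul] at h
  obtain ⟨hd, hrow⟩ := h
  have he : ∀ j < S.1, expOf S j ≤ 45 := fun j hj => (hrow j hj).1.1
  have hR : ∀ x < S.1, RowFacts pos S x := fun x hx => rowFacts (hrow x hx).1.2
  have hE : ∀ x < S.1, ∀ y < S.1,
      (entry row pos S x y : ℤ) = entE pos S x y + 2 ^ 145 := fun x hx y hy =>
    (entry_eq hd he (hR x hx) hx hy).2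
  have hsym : ∀ x < S.1, ∀ y < S.1, entE pos S x y = entE pos S y x := by
    have key : ∀ x < S.1, ∀ y < x, entE pos S x y = entE pos S y x := fun x hx y hy => by
      have := (hrow x hx).2.2.1 y hy
      have h1 := hE x hx y (hy.trans hx)
      have h2 := hE y (hy.trans hx) x hx
      rw [this] at h1
      linarith
    intro x hx y hy
    rcases lt_trichotomy y x with h | h | h
    · exact key x hx y h
    · rw [h]
    · exact (key y hy x h).symm
  have hdom : ∀ x < S.1, ∑ y ∈ range S.1, |((entE pos S x y : ℤ) : ℝ)| * (wtOf S y : ℝ)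
      ≤ 2 * ((entE pos S x x : ℤ) : ℝ) * (wtOf S x : ℝ) := by
    intro x hx
    have hh := (hrow x hx).2.2.2
    have conv : ∀ y < S.1, ((entry row pos S x y - 2 ^ 145) + (2 ^ 145 - entry row pos S x y) : ℕ)
        = (entE pos S x y).natAbs := by
      intro y hy
      have := hE x hx y hy
      omega
    rw [sum_congr rfl fun y hy => by rw [conv y (mem_range.1 hy)]] at hh
    have hxx : 0 ≤ entE pos S x x := by
      by_contra hn
      have h0 : entry row pos S x x - 2 ^ 145 = 0 := by
        have := hE x hx x hx; omega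
      rw [h0] at hh
      have h1 := (single_le_sum (f := fun y => (entE pos S x y).natAbs * wtOf S y)
        (fun y _ => Nat.zero_le _) (mem_range.2 hx)).trans hh
      have h2 : 1 ≤ (entE pos S x x).natAbs := by omega
      have h3 := Nat.mul_le_mul h2 (hrow x hx).2.1
      simp only [mul_zero, zero_mul, nonpos_iff_eq_zero, mul_one] at h1 h3
      omega
    have h4 : ((entry row pos S x x - 2 ^ 145 : ℕ) : ℤ) = entE pos S x x := by
      have := hE x hx x hx; omega
    have h5 : ((∑ y ∈ range S.1, (entE pos S x y).natAbs * wtOf S y : ℕ) : ℤ)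
        ≤ 2 * entE pos S x x * (wtOf S x : ℤ) := by
      rw [← h4]; exact_mod_cast hh
    push_cast at h5
    simpa using (Int.cast_le (R := ℝ)).2 h5
  set V : ℕ → ℝ := fun x => U (stOf S x) with hV
  have e1 : ∀ x ∈ range S.1,
      ((rowT (stOf S x)).map fun t => (coef t : ℝ) * (U (stOf S x) * U t.2.2)).sum
        = ∑ y ∈ range S.1, (entA pos S x y : ℝ) * (V x * V y) := by
    intro x hx
    rw [row_expand (hR x (mem_range.1 hx)) (fun y => V x * V y)]
    refine congrArg List.sum (List.map_congr_left fun t ht => ?_)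
    simp only [hV, ((hR x (mem_range.1 hx)).inside t ht).2]
  rw [sum_congr rfl e1]
  have e2 : ∑ x ∈ range S.1, ∑ y ∈ range S.1, (entA pos S x y : ℝ) * (V x * V y)
      = (∑ x ∈ range S.1, ∑ y ∈ range S.1, ((entE pos S x y : ℤ) : ℝ) * (V x * V y))
        + ∑ k ∈ range S.1, (∑ x ∈ range S.1, (rZ S x k : ℝ) * V x) ^ 2 := by
    simp only [sq, sum_mul_sum]
    rw [sum_comm (f := fun k x => ∑ y ∈ range S.1, _), ← sum_add_distrib]
    refine sum_congr rfl fun x _ => ?_
    rw [sum_comm, ← sum_add_distrib]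
    refine sum_congr rfl fun y _ => ?_
    simp only [entE, Int.cast_sub, Int.cast_sum, Int.cast_mul, sub_mul, sum_mul]
    rw [sum_congr rfl fun k _ => show (rZ S x k : ℝ) * V x * ((rZ S y k : ℝ) * V y)
      = rZ S x k * rZ S y k * (V x * V y) by ring]
    ring
  rw [e2]
  exact add_nonneg (dominant (fun x hx => Nat.cast_pos.2 (hrow x hx).2.1)
    (fun x hx y hy => by exact_mod_cast hsym x hx y hy) hdom V) (sum_nonneg fun k _ => sq_nonneg _)

end Vale.Agent.P359.Cert.Local
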