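import Vale.Agent.P359.Cert.Planar

/-!
# P359: the one-body inequalities of the planar certificate
-/

namespace Vale.Agent.P359.Cert

theorem oneOK : OneOK := by unfold OneOK; decide +kernel

theorem omegaOK : OmegaOK := by unfold OmegaOK; decide +kernel

theorem rhoOK : RhoOK := by unfold RhoOK; decide +kernel

end Vale.Agent.P359.Cert
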