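import Mathlib
import Vale.Agent.P359.Cert.Data

/-!
# P359: the finite statements certified by the planar data

Everything is in monomial coordinates: the pair weight `i` has squared norm `i! / 2 ^ i`, the
orbital `a` has `a!`, lowering multiplies by `2 Z + ∑ z`.
-/

namespace Vale.Agent.P359.Cert

open Finset

variable {α : Type*} [Field α]

/-- The squared norm of a pair monomial. -/
def nX (i : ℕ) : α := (i.factorial : α) / 2 ^ i

/-- A numerator of the data as a number. -/
def val (N : ℤ) : α := (N : α) / (den : α)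

/-- The planar exchange eigenvalue of relative momentum `k`. -/
def Gk (k : ℕ) : α := (-1 / 2) ^ k * (1 - 3 * (k : α))

/-! ## One body: a level-`T` vector is a function of the orbital `p ≤ T`, pair weight `T - p`. -/

/-- The highest weight vector `(Z - z) ^ k`. -/
def hw1 (k p : ℕ) : α := (-1) ^ p * (k.choose p : α)

/-- Multiplication by `2 Z + z`. -/
def raise1 (c : ℕ → α) (p : ℕ) : α := 2 * c p + if p = 0 then 0 else c (p - 1)

/-- The lowered highest weight vectors. -/
def desc1 (k : ℕ) : ℕ → ℕ → α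
  | 0 => hw1 k
  | s + 1 => raise1 (desc1 k s)

/-- Pairing with the monomial `(T - p, p)`. -/
def mom1 (T : ℕ) (c : ℕ → α) (p : ℕ) : α := c p * nX (T - p) * p.factorial

/-- The one-body weights as a quadratic form on level `T`. -/
def wForm (T : ℕ) (c : ℕ → α) : α :=
  ((wNum.getD T []).map fun e => val e.2.2 * (mom1 T c e.1 * mom1 T c e.2.1)).sum

/-- The squared norm of a highest weight vector. -/
def hwNorm (k : ℕ) : α := ∑ p ∈ range (k + 1), hw1 k p ^ 2 * nX (k - p) * p.factorial

/-- The planar channel value of the averaged one-body weights. -/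
def g1 (k : ℕ) : α :=
  2 / 3 * ∑ s ∈ range (14 - k), wForm (k + s) (desc1 k s) / ((3 : α) ^ s * (s.factorial : α) * hwNorm k)

/-- The planar channel value of the averaged majorant. -/
def gOmega (k : ℕ) : α :=
  (omegaNum.map fun e => if k ≤ e.1 then
    val e.2 * ((e.1.choose k : α) * (2 / 3) ^ (k + 1) * (1 / 3) ^ (e.1 - k)) else 0).sum

/-- The one-body inequalities. -/
def OneOK : Prop :=
  ∀ k < 42, k ≠ 0 → k ≠ 1 → k ≠ 3 → (Gk k : ℚ) < g1 k + gOmega k

/-- The total cost of the majorant. -/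
def OmegaOK : Prop := (omegaNum.map fun e => (val e.2 : ℚ)).sum ≤ 17 / 1000

/-! ## Two body: a level-`L` vector is a function of `a < b`, pair weight `L - a - b`. -/

/-- Vectors of level `L`. -/
def IsLevel (L : ℕ) (c : ℕ → ℕ → α) : Prop := ∀ a b, ¬ (a < b ∧ a + b ≤ L) → c a b = 0

/-- Multiplication by `2 Z + z + z'`. -/
def raise2 (c : ℕ → ℕ → α) (a b : ℕ) : α :=
  if a < b then 2 * c a b + (if a = 0 then 0 else c (a - 1) b) + c a (b - 1) else 0

/-- The lowered vectors. -/
def desc2 (c : ℕ → ℕ → α) : ℕ → ℕ → ℕ → α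
  | 0 => c
  | s + 1 => raise2 (desc2 c s)

/-- Pairing with the monomial `(L - a - b, a, b)`. -/
def mom2 (L : ℕ) (c : ℕ → ℕ → α) (a b : ℕ) : α :=
  c a b * nX (L - a - b) * a.factorial * b.factorial

/-- The two-body weights as a quadratic form on level `L`. -/
def lamForm (L : ℕ) (c : ℕ → ℕ → α) : α :=
  ((lamNum.getD L []).map fun e =>
    val e.2.2 * (mom2 L c e.1.1 e.1.2 * mom2 L c e.2.1.1 e.2.1.2)).sum

/-- The planar block of the averaged two-body weights. -/
def avgForm2 (L : ℕ) (c : ℕ → ℕ → α) : α :=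
  1 / 2 * ∑ s ∈ range (21 - L), lamForm (L + s) (desc2 c s) / ((4 : α) ^ s * (s.factorial : α))

/-- The coefficient of `z ^ a z' ^ b` in `(z - z') (z + z') ^ (a + b - 1)`. -/
def pairCoef (a b : ℕ) : α :=
  (if a = 0 then 0 else ((a + b - 1).choose (a - 1) : α)) - ((a + b - 1).choose a : α)

/-- The pair projection of the two fermions at level `L`. -/
def pairForm (L : ℕ) (c : ℕ → ℕ → α) : α :=
  ∑ M ∈ range L,
    (∑ a ∈ range (L - M + 1), if a < L - M - a then
      c a (L - M - a) * pairCoef a (L - M - a) * a.factorial * (L - M - a).factorial else 0) ^ 2 *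
      nX M /
      (∑ a ∈ range (L - M + 1), if a < L - M - a then
        (pairCoef a (L - M - a) : α) ^ 2 * (a.factorial : α) * ((L - M - a).factorial : α) else 0)

/-- The derivative `∂Z + ∂z + ∂z'`. -/
def lower2 (L : ℕ) (c : ℕ → ℕ → α) (a b : ℕ) : α :=
  ((L - a - b : ℕ) : α) * c a b + ((a : α) + 1) * (if a + 1 < b then c (a + 1) b else 0)
    + ((b : α) + 1) * c a (b + 1)

/-- Antisymmetric extension of a level vector. -/
def anti (c : ℕ → ℕ → α) (p q : ℕ) : α := if p < q then c p q else if q < p then -c q p else 0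

/-- The component on relative momentum `k` of the first fermion, the second in orbital `q`. -/
def channel (L k q : ℕ) (c : ℕ → ℕ → α) : α :=
  ∑ p ∈ range (L - q + 1),
    desc1 k (L - q - k) p * anti c p q * nX (L - q - p) * p.factorial * q.factorial

/-- Highest weight vectors orthogonal to the relative momenta `0`, `1`, `3`. -/
def IsAdm2 (L : ℕ) (c : ℕ → ℕ → α) : Prop :=
  IsLevel L c ∧ (∀ a b, a < b → a + b + 1 ≤ L → lower2 L c a b = 0) ∧
    ∀ k ∈ [0, 1, 3], ∀ q, k + q ≤ L → channel L k q c = 0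

/-- The two-body inequality at level `L`. -/
def TwoOK (L : ℕ) : Prop := ∀ c : ℕ → ℕ → ℝ, IsAdm2 L c → avgForm2 L c ≤ pairForm L c

/-! ## The local inequality on the window -/

/-- The local constant. -/
noncomputable def cLoc : ℝ := 91 / 100

/-- Pair weights of the window. -/
noncomputable def rhoR (i : Fin 6) : ℝ := val (rhoNum.getD i 0)

/-- The one-body operator on the window, orthonormal coordinates. -/
noncomputable def wR (x y : Fin 6 × Fin 9) : ℝ :=
  if (x.1 : ℕ) + x.2 = y.1 + y.2 then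
    (((wNum.getD ((x.1 : ℕ) + x.2) []).filter fun e => e.1 = x.2.val ∧ e.2.1 = y.2.val).map
      fun e => val e.2.2).sum *
      Real.sqrt (nX x.1 * (x.2.val.factorial : ℝ) * (nX y.1 * (y.2.val.factorial : ℝ)))
  else 0

/-- The two-body operator on the window, orthonormal coordinates of two ordered fermions. -/
noncomputable def lamR (x y : Fin 6 × Fin 9 × Fin 9) : ℝ :=
  if (x.1 : ℕ) + x.2.1 + x.2.2 = y.1 + y.2.1 + y.2.2 then
    (1 / 2) * (((lamNum.getD ((x.1 : ℕ) + x.2.1 + x.2.2) []).map fun e =>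
      val e.2.2 * anti (fun a b => if (a, b) = e.1 then 1 else 0) x.2.1 x.2.2 *
        anti (fun a b => if (a, b) = e.2.1 then 1 else 0) y.2.1 y.2.2).sum) *
      Real.sqrt (nX x.1 * (x.2.1.val.factorial : ℝ) * x.2.2.val.factorial *
        (nX y.1 * (y.2.1.val.factorial : ℝ) * y.2.2.val.factorial))
  else 0

/-- The local inequality for `n` fermions in the window. -/
def LocalOK (n : ℕ) : Prop :=
  ∀ φ : Fin 6 × (Fin n → Fin 9) → ℝ,
    (∀ i (σ : Equiv.Perm (Fin n)) (y : Fin n → Fin 9),
      φ (i, y ∘ σ) = ((Equiv.Perm.sign σ : ℤ) : ℝ) * φ (i, y)) →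
    0 ≤ cLoc * (∑ z, rhoR z.1 * φ z ^ 2)
      - (∑ r, ∑ z : Fin 6 × (Fin n → Fin 9), ∑ y : Fin 6 × Fin 9,
          φ z * wR (z.1, z.2 r) y * φ (y.1, Function.update z.2 r y.2))
      + ∑ r, ∑ s, if r < s then ∑ z : Fin 6 × (Fin n → Fin 9), ∑ y : Fin 6 × Fin 9 × Fin 9,
          φ z * lamR (z.1, z.2 r, z.2 s) y *
            φ (y.1, Function.update (Function.update z.2 r y.2.1) s y.2.2)
        else 0

/-- The trace of the window weights. -/
def RhoOK : Prop := (rhoNum.map fun N => (val N : ℚ)).sum = 1 ∧ ∀ N ∈ rhoNum, 0 < N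

end Vale.Agent.P359.Cert
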