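import Vale.Agent.P359.Cert.Two.LevelsA
import Vale.Agent.P359.Cert.Two.LevelsB
import Vale.Agent.P359.Cert.Two.LevelsC

/-!
# P359: the two-body inequalities of the planar certificate
-/

namespace Vale.Agent.P359.Cert

/-- The two-body inequalities at every level reached by the window. -/
theorem twoOK {L : ℕ} (hL : L ≤ 20) : TwoOK L := by
  interval_cases L
  · exact twoOK_0
  · exact twoOK_1
  · exact twoOK_2
  · exact twoOK_3
  · exact twoOK_4
  · exact twoOK_5
  · exact twoOK_6
  · exact twoOK_7
  · exact twoOK_8
  · exact twoOK_9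
  · exact twoOK_10
  · exact twoOK_11
  · exact twoOK_12
  · exact twoOK_13
  · exact twoOK_14
  · exact twoOK_15
  · exact twoOK_16
  · exact twoOK_17
  · exact twoOK_18
  · exact twoOK_19
  · exact twoOK_20

end Vale.Agent.P359.Cert
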